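import Vale.Agent.P073.ConicalBody
import Vale.Agent.P073.ConGlue
import Vale.Agent.P073.PR720.Cx
import Vale.Agent.P073.Net.Defs

/-!
# P073, block PA (assembly of the topology): statements
-/

open Set Metric Topology Filter

namespace P073.PA691

open P073 PR720
open Vale.Agent.P073.St (V IsInv)

/-- the parameter plane -/
abbrev P2 : Type := Fin 2 → ℝ

/-- the standard circle (the boundary of the square) -/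
abbrev S1 : Set P2 := sphere (0 : P2) 1

/-- the standard closed square -/
abbrev Q0 : Set P2 := closedBall (0 : P2) 1

/-! ### Inputs from other blocks -/

/-- (ALX) every conical two-sphere in three-space is standard -/
def SpecALX : Prop :=
  ∀ S : Set V, ConSphere 2 S →
    ∃ Φ : ConHomeo (univ : Set V) (univ : Set V), Φ.toFun '' sphere (0 : V) 1 = S

/-- (IoD) invariance of domain in three-space -/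
def SpecIoD : Prop :=
  ∀ (U : Set V) (f : V → V), IsOpen U → ContinuousOn f U → InjOn f U → IsOpen (f '' U)

/-- (LEV) almost all compact levels of a conical function of two variables are finite unions of
disjoint circles -/
def SpecLev : Prop :=
  ∀ (U : Set P2) (u : P2 → ℝ), IsOpen U → ContinuousOn u U → ConicalOn u U →
    ∃ C : Set ℝ, C.Countable ∧ ∀ c ∉ C, IsCompact (U ∩ u ⁻¹' {c}) →
      ∃ (n : ℕ) (γ : Fin n → Set P2), (∀ j, ConSphere 1 (γ j)) ∧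
        (∀ i j, i ≠ j → Disjoint (γ i) (γ j)) ∧ U ∩ u ⁻¹' {c} = ⋃ j, γ j

/-- (C2a) finite families of disjoint conical circles in the open square -/
def SpecPlanar : Prop :=
  ∀ (n : ℕ) (γ : Fin n → Set P2), (∀ j, ConSphere 1 (γ j)) →
    (∀ i j, i ≠ j → Disjoint (γ i) (γ j)) → (∀ j, γ j ⊆ ball 0 1) →
    ∃ Δ : Fin n → Set P2, (∀ j, ConBall 2 (Δ j) (γ j)) ∧ (∀ j, Δ j ⊆ ball 0 1) ∧
      (∀ j, IsOpen (Δ j \ γ j)) ∧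
      (∀ i j, i ≠ j → Δ i ⊆ Δ j \ γ j ∨ Δ j ⊆ Δ i \ γ i ∨ Disjoint (Δ i) (Δ j)) ∧
      (∀ s : Finset (Fin n), (∀ i ∈ s, ∀ j ∈ s, i ≠ j → Disjoint (Δ i) (Δ j)) →
        IsPreconnected (Q0 \ ⋃ i ∈ s, Δ i) ∧
        ∀ j, (∀ i ∈ s, Δ i ⊆ Δ j \ γ j) → IsPreconnected ((Δ j \ γ j) \ ⋃ i ∈ s, Δ i))

/-- `M` is a conical annulus with ends `γ` and `γ'` -/
def ConAnn {E : Type*} [NormedAddCommGroup E] [NormedSpace ℝ E] (M γ γ' : Set E) : Prop :=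
  ∃ a : ConHomeo (S1 ×ˢ Icc (0:ℝ) 1) M, a.toFun '' (S1 ×ˢ {0}) = γ ∧ a.toFun '' (S1 ×ˢ {1}) = γ'

/-- `B` is a disc in the open annulus `S1 × (-1,1)` with boundary `γ` -/
def AnnDisc (B γ : Set (P2 × ℝ)) : Prop :=
  ConBall 2 B γ ∧ B ⊆ S1 ×ˢ Ioo (-1:ℝ) 1 ∧
    ∃ U : Set (P2 × ℝ), IsOpen U ∧ B \ γ = U ∩ (S1 ×ˢ Ioo (-1:ℝ) 1)

/-- (C2b) conical circles in an annulus -/
def SpecAnnulus : Prop :=
  (∀ γ : Set (P2 × ℝ), ConSphere 1 γ → γ ⊆ S1 ×ˢ Ioo (-1:ℝ) 1 →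
    (∃ B, AnnDisc B γ) ∨
    (∀ τ ∈ Ioo (-1:ℝ) 1, γ ⊆ S1 ×ˢ Iio τ →
      ∃ M, ConAnn M γ (S1 ×ˢ {τ}) ∧ M ⊆ S1 ×ˢ Ioc (-1:ℝ) τ)) ∧
  (∀ γ γ' B B' : Set (P2 × ℝ), AnnDisc B γ → AnnDisc B' γ' → Disjoint γ γ' →
    B ⊆ B' \ γ' ∨ B' ⊆ B \ γ ∨ Disjoint B B')

/-! ### Regular cell decompositions and the final extension -/

/-- A locally finite decomposition of `Λ` into conical balls `R j` with disjoint interiors, whose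
frontiers are unions of connected pieces `E a`. -/
structure Cells (Λ : Set V) where
  J : Type
  A : Type
  R : J → Set V
  isBall : ∀ j, ConBall 3 (R j) (frontier (R j))
  E : A → Set V
  bE : A → Set V
  conn : ∀ a, IsPreconnected (E a \ bE a)
  dense : ∀ a, E a ⊆ closure (E a \ bE a)
  cover : ⋃ j, R j = Λ
  lf : LF R Λ
  bdry : ∀ j, ∀ x ∈ frontier (R j), ∃ a, E a ⊆ frontier (R j) ∧ x ∈ E a
  used : ∀ a, ∃ j, E a ⊆ frontier (R j)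
  off : ∀ a j, ¬ E a ⊆ frontier (R j) → E a ∩ R j ⊆ bE a
  sep : ∀ i j, i ≠ j → R i ∩ R j ⊆ frontier (R i)

/-- the union of the boundaries of the cells -/
def Cells.X {Λ : Set V} (K : Cells Λ) : Set V := ⋃ j, frontier (K.R j)

/-- (ASM) extension of a homeomorphism of the two-dimensional skeleton -/
def SpecASM : Prop :=
  ∀ (Ω Λ : Set V) (f g : V → V) (K : Cells Λ) (X' : Set V) (k : ConHomeo K.X X')
    (W : K.J → Set V) (p : K.J → V) (q : K.A → V),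
    IsOpen Ω → IsConnected Ω → IsOpen Λ → IsInv Ω Λ f g → ContinuousOn f Ω → ContinuousOn g Λ →
    X' ⊆ Ω → closure X' ∩ Ω ⊆ X' →
    (∀ j, W j ⊆ Λ) → LF (fun j => K.R j ∪ W j) Λ →
    (∀ j, ∀ y ∈ frontier (K.R j), segment ℝ y (f (k.toFun y)) ⊆ W j) →
    (∀ j, p j ∈ K.R j ∧ p j ∉ W j) → (∀ i j, i ≠ j → p i ∉ K.R j ∪ W j) →
    (∀ a, q a ∈ K.E a ∧ q a ∉ K.bE a) →
    (∀ a j, ¬ K.E a ⊆ frontier (K.R j) → f (k.toFun (q a)) ∉ K.R j ∪ W j) →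
    ∃ h : ConHomeo Ω Λ, EqOn h.toFun k.invFun X' ∧
      ∀ j, ∀ x ∈ Ω, h.toFun x ∈ K.R j → f x ∈ K.R j ∪ W j

/-! ### The two sides of a bicollared surface -/

/-- (SIDES) -/
def SpecSides : Prop :=
  ∀ (Ω Λ : Set V) (f g : V → V) (H F : Set V),
    IsOpen Ω → IsConnected Ω → IsOpen Λ → IsInv Ω Λ f g → ContinuousOn f Ω → ContinuousOn g Λ →
    H ⊆ Λ → closure H ∩ Λ ⊆ H → frontier H ∩ Λ = F → IsConnected F →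
    ∃ ε₀ : V → ℝ, ContinuousOn ε₀ Λ ∧ (∀ y ∈ Λ, 0 < ε₀ y) ∧
    ∀ (N : Set V) (κ : ConHomeo (F ×ˢ Icc (-1:ℝ) 1) N) (p₁ p₂ : V),
    N ⊆ Ω → closure N ∩ Ω ⊆ N → IsOpen (κ.toFun '' (F ×ˢ Ioo (-1:ℝ) 1)) →
    (∀ y ∈ F, ‖κ.toFun (y, 0) - g y‖ ≤ ε₀ y) →
    p₁ ∈ H → p₂ ∈ Λ → p₂ ∉ H →
    (∀ y ∈ F, ‖κ.toFun (y, 0) - g y‖ < ‖g y - g p₁‖) →
    (∀ y ∈ F, ‖κ.toFun (y, 0) - g y‖ < ‖g y - g p₂‖) →
    ∃ (O I : Set V) (σ : ℝ), (σ = 1 ∨ σ = -1) ∧ IsOpen O ∧ IsOpen I ∧ Disjoint O I ∧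
      O ∪ I = Ω \ κ.toFun '' (F ×ˢ {0}) ∧
      (∀ y ∈ F, ∀ t ∈ Ioc (0:ℝ) 1, κ.toFun (y, σ * t) ∈ O ∧ κ.toFun (y, -(σ * t)) ∈ I) ∧
      (∀ z ∈ Λ, z ∉ H → (∀ y ∈ F, ‖κ.toFun (y, 0) - g y‖ < ‖g y - g z‖) → g z ∈ O) ∧
      (∀ z ∈ H, (∀ y ∈ F, ‖κ.toFun (y, 0) - g y‖ < ‖g y - g z‖) → g z ∈ I)

/-! ### The disc lemma -/

/-- (ESS) essential and inessential circles: `β` maps a circle `γ` of the parameter plane to the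
annulus, close to the inverse of `z` (as seen from the origin). -/
def SpecEss : Prop :=
  ∀ (γ D Δ ζ : Set P2) (γ' : Set (P2 × ℝ)) (β : ConHomeo γ γ') (z : ConHomeo S1 ζ),
    ConBall 2 D γ → ConBall 2 Δ ζ → (0 : P2) ∈ Δ → (0 : P2) ∉ ζ →
    γ' ⊆ S1 ×ˢ Ioo (-1:ℝ) 1 →
    (∀ y ∈ γ, (0 : P2) ∉ segment ℝ y (z.toFun (β.toFun y).1)) →
    ((0 : P2) ∈ D ↔ ¬ ∃ B, AnnDisc B γ')

/-- the circle `β` of the annulus, at height `c` -/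
def lift (c : ℝ) (β : Set (P2 × ℝ)) : Set (P2 × ℝ × ℝ) := {p | (p.1, p.2.1) ∈ β ∧ p.2.2 = c}

/-- (CAPS + LEG) in the product of the annulus `S1 × (-1,1)` with `[0,c]`: caps for inessential
circles at height `c`, and a leg from an essential circle at height `c` to the middle circle at
height `0`. -/
def SpecCapsLeg : Prop :=
  ∀ (c : ℝ) (n : ℕ) (β : Fin n → Set (P2 × ℝ)) (β₀ : Set (P2 × ℝ)), 0 < c →
    (∀ j, ConSphere 1 (β j)) → ConSphere 1 β₀ → (∀ i j, i ≠ j → Disjoint (β i) (β j)) →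
    (∀ j, Disjoint (β j) β₀) → (∀ j, β j ⊆ S1 ×ˢ Ioo (-1:ℝ) 1) → β₀ ⊆ S1 ×ˢ Ioo (-1:ℝ) 1 →
    (∀ j, ∃ B, AnnDisc B (β j)) → (¬ ∃ B, AnnDisc B β₀) →
    ∃ (C : Fin n → Set (P2 × ℝ × ℝ)) (L : Set (P2 × ℝ × ℝ)),
      (∀ j, ConBall 2 (C j) (lift c (β j))) ∧ ConAnn L (lift c β₀) (S1 ×ˢ ({0} ×ˢ {0})) ∧
      (∀ i j, i ≠ j → Disjoint (C i) (C j)) ∧ (∀ j, Disjoint (C j) L) ∧
      (∀ j, C j ⊆ S1 ×ˢ (Ioo (-1:ℝ) 1 ×ˢ Ioc (0:ℝ) c)) ∧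
      (∀ j, ∀ p ∈ C j, p.2.2 = c → p ∈ lift c (β j)) ∧
      L ⊆ S1 ×ˢ (Ioo (-1:ℝ) 1 ×ˢ Icc (0:ℝ) c) ∧ (∀ p ∈ L, p.2.2 = c → p ∈ lift c β₀) ∧
      ∀ p ∈ L, p.2.2 = 0 → p.2.1 = 0

/-- (DISC) a disc close to a properly embedded topological disc can be changed, near the bicollared
annulus, into a disc with the right boundary and the right side -/
def SpecDisc : Prop :=
  ∀ (O I N D₀ : Set V) (K : ConHomeo (S1 ×ˢ (Icc (-1:ℝ) 1 ×ˢ Icc (-1:ℝ) 1)) N)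
    (g : ConHomeo Q0 D₀) (ζ Δ : Set P2) (z : ConHomeo S1 ζ),
    IsOpen O → IsOpen I → Disjoint O I →
    IsOpen (K.toFun '' (S1 ×ˢ (Ioo (-1:ℝ) 1 ×ˢ Ioo (-1:ℝ) 1))) →
    (∀ θ ∈ S1, ∀ τ ∈ Icc (-1:ℝ) 1, ∀ t ∈ Ioc (0:ℝ) 1, K.toFun (θ, τ, t) ∈ O) →
    (∀ θ ∈ S1, ∀ τ ∈ Icc (-1:ℝ) 1, ∀ t ∈ Ico (-1:ℝ) 0, K.toFun (θ, τ, t) ∈ I) →
    ConBall 2 Δ ζ → Δ ⊆ ball 0 1 → (0 : P2) ∈ Δ → (0 : P2) ∉ ζ →
    (∀ y ∈ Q0, g.toFun y ∈ O ∪ I ∪ K.toFun '' (S1 ×ˢ (Ioo (-1:ℝ) 1 ×ˢ {0}))) →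
    (∀ y ∈ Q0, ∀ θ ∈ S1, ∀ τ ∈ Icc (-1:ℝ) 1, ∀ t ∈ Icc (-1:ℝ) 1,
      g.toFun y = K.toFun (θ, τ, t) → τ ∈ Ioo (-1:ℝ) 1 ∧ (0 : P2) ∉ segment ℝ y (z.toFun θ)) →
    g.toFun 0 ∈ O → g.toFun 0 ∉ N → (∀ y ∈ S1, g.toFun y ∈ I) →
    ∃ D, ConBall 2 D (K.toFun '' (S1 ×ˢ ({0} ×ˢ {0}))) ∧
      D \ K.toFun '' (S1 ×ˢ ({0} ×ˢ {0})) ⊆ O ∧
      D ⊆ D₀ ∪ K.toFun '' (S1 ×ˢ (Icc (-1:ℝ) 1 ×ˢ Icc (0:ℝ) 1)) ∧
      ∀ M ⊆ Q0, IsPreconnected M → (0 : P2) ∈ M → (∀ y ∈ M, g.toFun y ∉ N) → g.toFun '' M ⊆ D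

/-- (DISC) follows from the planar inputs -/
def SpecDiscOf : Prop := SpecLev → SpecPlanar → SpecEss → SpecCapsLeg → SpecDisc

/-! ### Handle structures on the target -/

/-- A handle structure of `Λ`: a thin closed neighbourhood `H` of a graph with frontier `F`, cut
into balls by flat discs inside `H` and outside `H`. -/
structure Handle (Λ : Set V) where
  /-- the three-cells -/
  J : Type
  R : J → Set V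
  isBall : ∀ j, ConBall 3 (R j) (frontier (R j))
  cover : ⋃ j, R j = Λ
  lf : LF R Λ
  sep : ∀ i j, i ≠ j → R i ∩ R j ⊆ frontier (R i)
  /-- the neighbourhood of the graph and its frontier -/
  H : Set V
  F : Set V
  H_sub : H ⊆ Λ
  H_closed : closure H ∩ Λ ⊆ H
  H_frontier : frontier H ∩ Λ = F
  H_int : (interior H).Nonempty
  H_ne : (Λ \ H).Nonempty
  /-- index set of the cutting discs -/
  D : Type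
  /-- the disc is outside `H` -/
  out : D → Prop
  /-- parametrisation of the flat rectangle containing the disc -/
  ι : D → P2 →ᴬ[ℝ] V
  Δ : D → Set P2
  ζ : D → Set P2
  /-- the surface `F` is vertical near the boundary of the disc -/
  n : D → V
  n_ind : ∀ d u w (t : ℝ), ι d u + t • n d = ι d w → t = 0 ∧ u = w
  Q_sub : ∀ d, ι d '' Q0 ⊆ Λ
  Q_lf : LF (fun d => ι d '' Q0) Λ
  Q_disj : ∀ d d', (out d ↔ out d') → d ≠ d' → Disjoint (ι d '' Q0) (ι d' '' Q0)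
  center : ∀ d d', d ≠ d' → ι d 0 ∉ ι d' '' Q0
  Δ_ball : ∀ d, ConBall 2 (Δ d) (ζ d)
  Δ_sub : ∀ d, Δ d ⊆ ball 0 1
  zero_mem : ∀ d, (0 : P2) ∈ Δ d ∧ (0 : P2) ∉ ζ d
  ζ_sub : ∀ d, ι d '' ζ d ⊆ F
  out_in : ∀ d, out d → (∀ y ∈ Δ d, y ∉ ζ d → ι d y ∉ H) ∧
    ∀ y ∈ Q0, y ∉ Δ d → ι d y ∈ interior H
  in_in : ∀ d, ¬ out d → (∀ y ∈ Δ d, y ∉ ζ d → ι d y ∈ interior H) ∧
    ∀ y ∈ Q0, y ∉ Δ d → ι d y ∉ H
  Ann_sub : ∀ d, ∀ y ∈ ζ d, ∀ t ∈ Icc (-1:ℝ) 1, ι d y + t • n d ∈ F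
  Ann_open : ∀ d, ∃ U : Set V, IsOpen U ∧
    U ∩ F = {x | ∃ y ∈ ζ d, ∃ t ∈ Ioo (-1:ℝ) 1, x = ι d y + t • n d}
  /-- pieces of `F` -/
  AF : Type
  E : AF → Set V
  bE : AF → Set V
  E_sub : ∀ a, E a ⊆ F
  E_lf : LF E Λ
  conn : ∀ a, IsPreconnected (E a \ bE a)
  dense : ∀ a, E a ⊆ closure (E a \ bE a)
  /-- every frontier is a union of discs and pieces -/
  X_eq : ⋃ j, frontier (R j) = F ∪ ⋃ d, ι d '' Δ d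
  bdry : ∀ j, ∀ x ∈ frontier (R j), (∃ a, E a ⊆ frontier (R j) ∧ x ∈ E a) ∨
    ∃ d, ι d '' Δ d ⊆ frontier (R j) ∧ x ∈ ι d '' Δ d
  used : ∀ a, ∃ j, E a ⊆ frontier (R j)
  usedD : ∀ d, ∃ j, ι d '' Δ d ⊆ frontier (R j)
  off : ∀ a j, ¬ E a ⊆ frontier (R j) → E a ∩ R j ⊆ bE a
  offD : ∀ d j, ¬ ι d '' Δ d ⊆ frontier (R j) → ι d '' Δ d ∩ R j ⊆ ι d '' ζ d
  /-- sample points -/
  p_ex : ∀ j, ∃ p ∈ R j, p ∉ frontier (R j) ∧ ∀ d, p ∉ ι d '' Q0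
  q_ex : ∀ a, ∃ q ∈ E a, q ∉ bE a ∧ ∀ d, q ∉ ι d '' ζ d

/-- the skeleton -/
def Handle.X {Λ : Set V} (S : Handle Λ) : Set V := S.F ∪ ⋃ d, S.ι d '' S.Δ d

/-- the frontier of a cell, together with the flat squares around its discs -/
def Handle.core {Λ : Set V} (S : Handle Λ) (j : S.J) : Set V :=
  frontier (S.R j) ∪ ⋃ (d) (_ : S.ι d '' S.Δ d ⊆ frontier (S.R j)), S.ι d '' Q0

/-- (P-F) bicollared copies of the surface `F`, arbitrarily close to `g = f⁻¹` -/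
def CollarInput (Ω Λ F : Set V) (f g : V → V) : Prop :=
  ∀ ε : V → ℝ, ContinuousOn ε Λ → (∀ y ∈ Λ, 0 < ε y) →
    ∃ (N : Set V) (κ : ConHomeo (F ×ˢ Icc (-1:ℝ) 1) N), N ⊆ Ω ∧ closure N ∩ Ω ⊆ N ∧
      IsOpen (κ.toFun '' (F ×ˢ Ioo (-1:ℝ) 1)) ∧
      ∀ y ∈ F, ∀ t ∈ Icc (-1:ℝ) 1, ‖f (κ.toFun (y, t)) - y‖ ≤ ε y ∧
        ‖κ.toFun (y, t) - g y‖ ≤ ε y

/-- (P-R) copies of a flat rectangle with exact crossings with the set `G₀` -/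
def RectInput (Ω : Set V) (f : V → V) (G₀ : Set V) (ι : P2 → V) : Prop :=
  ∀ ε > 0, ∃ (D₀ : Set V) (γ : ConHomeo Q0 D₀), D₀ ⊆ Ω ∧
    (∀ y ∈ Q0, ‖f (γ.toFun y) - ι y‖ ≤ ε) ∧ ∀ x ∈ G₀, x ∈ D₀ ↔ f x ∈ ι '' Q0

/-- (MAIN) from handle structures to homeomorphisms -/
def SpecMain : Prop :=
  ∀ (Ω Λ : Set V) (f g : V → V) (S : Handle Λ) (G₀ Y : Set V) (η : V → ℝ),
    IsOpen Ω → IsConnected Ω → IsOpen Λ → IsInv Ω Λ f g → ContinuousOn f Ω → ContinuousOn g Λ →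
    CollarInput Ω Λ S.F f g → (∀ d, S.out d → RectInput Ω f G₀ (S.ι d)) →
    (∀ d, ¬ S.out d → RectInput Ω f ∅ (S.ι d)) →
    G₀ ⊆ Ω → closure G₀ ∩ Ω ⊆ G₀ → (∀ x ∈ G₀, f x ∉ S.H) →
    Y ⊆ Λ → closure Y ∩ Λ ⊆ Y → Disjoint Y S.X → (∀ d, Disjoint Y (S.ι d '' Q0)) →
    ContinuousOn η Λ → (∀ y ∈ Λ, 0 < η y) →
    ∃ h : ConHomeo Ω Λ,
      (∀ x ∈ Ω, f x ∈ Y → ∀ j, h.toFun x ∈ S.R j ↔ f x ∈ S.R j) ∧
      (∀ x ∈ Ω, ∀ j, h.toFun x ∈ S.R j → f x ∈ S.R j ∨ ∃ y ∈ S.core j, ‖f x - y‖ ≤ η y) ∧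
      (∀ x ∈ G₀, h.toFun x ∈ S.X ↔ f x ∈ S.X)

/-- (MAIN) follows from the other blocks -/
def SpecMainOf : Prop := SpecALX → SpecASM → SpecSides → SpecDisc → SpecMain

end P073.PA691
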