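import Vale.Agent.P073.PA691.TMSpec

/-!
# P073, block PA: the handle structure of a box complex with sizes
-/

open Set Metric Topology Filter

namespace P073.PA691

open P073 PR720
open Vale.Agent.P073.St (V IsInv)

namespace BoxCx.Sizes

variable {Λ : Set V} {v : V} {K : BoxCx Λ v} (s : K.Sizes) (c : ℝ)

/-- the handle structure -/
noncomputable def mkHandle (hB : s.BasicFacts c) (hR : s.BallFacts c) (hD : s.DiscFacts c)
    (hP : s.PieceFacts c) : Handle Λ where
  J := K.T ⊕ K.W ⊕ K.G
  R := s.R c
  isBall := hR
  cover := hB.cover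
  lf := hB.lf
  sep := hB.sep
  H := s.H c
  F := s.F c
  H_sub := hB.H_sub
  H_closed := hB.H_closed
  H_frontier := hB.H_frontier
  H_int := hB.H_int
  H_ne := hB.H_ne
  D := D K
  out := out
  ι := fun d => (hD.par_affine d).choose
  Δ := s.Δ c
  ζ := s.ζ c
  n := s.n
  n_ind := by
    intro d u w t h
    rw [(hD.par_affine d).choose_spec, (hD.par_affine d).choose_spec] at h
    exact hD.n_ind d u w t h
  Q_sub := by
    intro d
    rw [show ((hD.par_affine d).choose : P2 → V) = s.par c d from
      funext (hD.par_affine d).choose_spec]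
    exact hD.Q_sub d
  Q_lf := by
    have h : (fun d => ((hD.par_affine d).choose : P2 → V) '' Q0) = fun d => s.par c d '' Q0 := by
      funext d
      rw [show ((hD.par_affine d).choose : P2 → V) = s.par c d from
        funext (hD.par_affine d).choose_spec]
    rw [h]
    exact hD.Q_lf
  Q_disj := by
    intro d d' h hne
    rw [show ((hD.par_affine d).choose : P2 → V) = s.par c d from
      funext (hD.par_affine d).choose_spec, show ((hD.par_affine d').choose : P2 → V) = s.par c d'
      from funext (hD.par_affine d').choose_spec]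
    exact hD.Q_disj d d' h hne
  center := by
    intro d d' hne
    rw [(hD.par_affine d).choose_spec, show ((hD.par_affine d').choose : P2 → V) = s.par c d'
      from funext (hD.par_affine d').choose_spec]
    exact hD.center d d' hne
  Δ_ball := hD.Δ_ball
  Δ_sub := hD.Δ_sub
  zero_mem := hD.zero_mem
  ζ_sub := by
    intro d
    rw [show ((hD.par_affine d).choose : P2 → V) = s.par c d from
      funext (hD.par_affine d).choose_spec]
    exact hD.ζ_sub d
  out_in := by
    intro d hd
    refine ⟨fun y hy hy' => ?_, fun y hy hy' => ?_⟩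
    · rw [(hD.par_affine d).choose_spec]
      exact (hD.out_in d hd).1 y hy hy'
    · rw [(hD.par_affine d).choose_spec, hB.H_interior]
      exact (hD.out_in d hd).2 y hy hy'
  in_in := by
    intro d hd
    refine ⟨fun y hy hy' => ?_, fun y hy hy' => ?_⟩
    · rw [(hD.par_affine d).choose_spec, hB.H_interior]
      exact (hD.in_in d hd).1 y hy hy'
    · rw [(hD.par_affine d).choose_spec]
      exact (hD.in_in d hd).2 y hy hy'
  Ann_sub := by
    intro d y hy t ht
    rw [(hD.par_affine d).choose_spec]
    exact hD.Ann_sub d y hy t ht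
  Ann_open := by
    intro d
    rw [show ((hD.par_affine d).choose : P2 → V) = s.par c d from
      funext (hD.par_affine d).choose_spec]
    exact hD.Ann_open d
  AF := hP.choose
  E := hP.choose_spec.choose
  bE := hP.choose_spec.choose_spec.choose
  E_sub := hP.choose_spec.choose_spec.choose_spec.1
  E_lf := hP.choose_spec.choose_spec.choose_spec.2.1
  conn := hP.choose_spec.choose_spec.choose_spec.2.2.1
  dense := hP.choose_spec.choose_spec.choose_spec.2.2.2.1
  X_eq := by
    have h : (⋃ d, ((hD.par_affine d).choose : P2 → V) '' s.Δ c d) =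
        ⋃ d, s.par c d '' s.Δ c d := by
      refine iUnion_congr fun d => ?_
      rw [show ((hD.par_affine d).choose : P2 → V) = s.par c d from
        funext (hD.par_affine d).choose_spec]
    rw [h]
    exact hD.X_eq
  bdry := by
    intro j x hx
    by_cases hxF : x ∈ s.F c
    · exact Or.inl (hP.choose_spec.choose_spec.choose_spec.2.2.2.2.1 j x hx hxF)
    · right
      have h1 : x ∈ s.F c ∪ ⋃ d, s.par c d '' s.Δ c d := by
        rw [← hD.X_eq]; exact mem_iUnion.2 ⟨j, hx⟩
      rcases h1 with h1 | h1
      · exact absurd h1 hxF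
      · obtain ⟨d, hd⟩ := mem_iUnion.1 h1
        refine ⟨d, ?_⟩
        rw [show ((hD.par_affine d).choose : P2 → V) = s.par c d from
          funext (hD.par_affine d).choose_spec]
        refine ⟨?_, hd⟩
        by_contra hcon
        have hcl : IsClosed (s.R c j) := (hR j).isClosed
        exact hxF (hD.ζ_sub d (hD.offD d j hcon ⟨hd, hcl.frontier_subset hx⟩))
  used := hP.choose_spec.choose_spec.choose_spec.2.2.2.2.2.1
  usedD := by
    intro d
    rw [show ((hD.par_affine d).choose : P2 → V) = s.par c d from
      funext (hD.par_affine d).choose_spec]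
    exact hD.usedD d
  off := hP.choose_spec.choose_spec.choose_spec.2.2.2.2.2.2.1
  offD := by
    intro d j
    rw [show ((hD.par_affine d).choose : P2 → V) = s.par c d from
      funext (hD.par_affine d).choose_spec]
    exact hD.offD d j
  p_ex := by
    intro j
    obtain ⟨p, h1, h2, h3⟩ := hD.p_ex j
    refine ⟨p, h1, h2, fun d => ?_⟩
    rw [show ((hD.par_affine d).choose : P2 → V) = s.par c d from
      funext (hD.par_affine d).choose_spec]
    exact h3 d
  q_ex := by
    intro a
    obtain ⟨q, h1, h2, h3⟩ := hP.choose_spec.choose_spec.choose_spec.2.2.2.2.2.2.2 a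
    refine ⟨q, h1, h2, fun d => ?_⟩
    rw [show ((hD.par_affine d).choose : P2 → V) = s.par c d from
      funext (hD.par_affine d).choose_spec]
    exact h3 d

variable (hB : s.BasicFacts c) (hR : s.BallFacts c) (hD : s.DiscFacts c) (hP : s.PieceFacts c)

theorem mkHandle_ι (d : D K) : ((s.mkHandle c hB hR hD hP).ι d : P2 → V) = s.par c d :=
  funext (hD.par_affine d).choose_spec

theorem mkHandle_X : (s.mkHandle c hB hR hD hP).X = ⋃ j, frontier (s.R c j) :=
  (s.mkHandle c hB hR hD hP).X_eq.symm

end BoxCx.Sizes

end P073.PA691
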