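import Vale.Agent.P073.PA691.Spec
import Vale.Agent.P073.TR.Level2

/-!
# P073, block PA: generic levels in the plane
-/

open Set Metric Topology Filter

namespace P073.PA691

theorem specLev : SpecLev := by
  intro U u hU hc hu
  obtain ⟨C, hC, h⟩ := TR.exists_generic_circles (E := P2) (by simp) hU hu hc
  refine ⟨C, hC, fun c hcC hcomp => ?_⟩
  have hset : U ∩ u ⁻¹' {c} = {x | x ∈ U ∧ u x = c} := by
    ext x; rfl
  rw [hset] at hcomp ⊢
  obtain ⟨J, hJ, Cs, hun, hdis, hsph⟩ := h c hcC hcomp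
  obtain ⟨n, ⟨e⟩⟩ := Finite.exists_equiv_fin J
  refine ⟨n, fun j => Cs (e.symm j), fun j => hsph _, fun i j hij => hdis _ _ fun he => hij ?_, ?_⟩
  · exact e.symm.injective he
  · rw [← hun]
    exact (e.symm.surjective.iUnion_comp Cs).symm

end P073.PA691
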