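import Vale.Agent.P073.PA691.Spec

/-!
# P073, block TM (target model): definitions and statements

`BoxCx Λ v`: a locally finite tiling of `Λ` by axis-parallel closed boxes with its vertices, minimal
edges and minimal squares.  `Sizes`: radii of the cubes around the vertices and of the beams around
the edges.  `H` = union of the cubes of radius `c r i` and of the beams of radius `c q e`.
-/

open Set Metric Topology Filter

namespace P073.PA691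

open P073 PR720
open Vale.Agent.P073.St (V IsInv)

/-- dyadic rational numbers -/
def IsDy (x : ℝ) : Prop := ∃ (z : ℤ) (m : ℕ), x = z / 2 ^ m

/-- A locally finite tiling of `Λ` by boxes, with its one-skeleton cut into minimal edges and its
two-skeleton cut into minimal squares (rectangles). -/
structure BoxCx (Λ : Set V) (v : V) where
  /-- tiles -/
  T : Type
  lo : T → V
  hi : T → V
  lt : ∀ p k, lo p k < hi p k
  sub : ∀ p, Icc (lo p) (hi p) ⊆ Λ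
  cover : ∀ x ∈ Λ, ∃ p, x ∈ Icc (lo p) (hi p)
  lfT : LF (fun p => Icc (lo p) (hi p)) Λ
  dis : ∀ p q, p ≠ q → ∀ x, (∀ k, lo p k < x k ∧ x k < hi p k) → x ∉ Icc (lo q) (hi q)
  /-- vertices -/
  W : Type
  w : W → V
  w_inj : Function.Injective w
  w_dy : ∀ i k, IsDy (w i k - v k)
  /-- edges: `Icc (w (a e)) (w (b e))` is a segment of direction `dir e` -/
  G : Type
  a : G → W
  b : G → W
  dir : G → Fin 3
  ab_dir : ∀ e, w (a e) (dir e) < w (b e) (dir e)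
  ab_off : ∀ e k, k ≠ dir e → w (a e) k = w (b e) k
  lfG : LF (fun e => Icc (w (a e)) (w (b e))) Λ
  w_edge : ∀ i, ∃ e, i = a e ∨ i = b e
  w_on_edge : ∀ i e, w i ∈ Icc (w (a e)) (w (b e)) → i = a e ∨ i = b e
  edge_meet : ∀ e e', e ≠ e' → ∀ x ∈ Icc (w (a e)) (w (b e)), x ∈ Icc (w (a e')) (w (b e')) →
    ∃ i, x = w i
  edge_in : ∀ e, ∃ p, Icc (w (a e)) (w (b e)) ⊆ Icc (lo p) (hi p)
  /-- vertices and edges are in the boundaries of the tiles -/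
  w_tile : ∀ i p, w i ∈ Icc (lo p) (hi p) → ∃ k, w i k = lo p k ∨ w i k = hi p k
  edge_tile : ∀ e p, ∀ x ∈ Icc (w (a e)) (w (b e)), x ≠ w (a e) → x ≠ w (b e) →
    x ∈ Icc (lo p) (hi p) → Icc (w (a e)) (w (b e)) ⊆ Icc (lo p) (hi p) ∧
      ∃ k, k ≠ dir e ∧ (w (a e) k = lo p k ∨ w (a e) k = hi p k)
  /-- the one-skeletons of the tiles are covered by the edges -/
  skel_tile : ∀ p, ∀ x ∈ Icc (lo p) (hi p), ∀ k k', k ≠ k' → (x k = lo p k ∨ x k = hi p k) →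
    (x k' = lo p k' ∨ x k' = hi p k') → ∃ e, x ∈ Icc (w (a e)) (w (b e))
  /-- minimal squares: `Icc (slo s) (shi s)` is the common face of the tiles `sm s` (below) and
  `sp s` (above) -/
  S : Type
  sm : S → T
  sp : S → T
  nrm : S → Fin 3
  slo : S → V
  shi : S → V
  s_flat : ∀ s, slo s (nrm s) = shi s (nrm s)
  s_lt : ∀ s k, k ≠ nrm s → slo s k < shi s k
  s_lev : ∀ s, hi (sm s) (nrm s) = slo s (nrm s) ∧ lo (sp s) (nrm s) = slo s (nrm s)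
  s_dy : ∀ s, IsDy (slo s (nrm s) - v (nrm s))
  s_eq : ∀ s, Icc (slo s) (shi s) = Icc (lo (sm s)) (hi (sm s)) ∩ Icc (lo (sp s)) (hi (sp s))
  lfS : LF (fun s => Icc (slo s) (shi s)) Λ
  sqo_edge : ∀ s x, x (nrm s) = slo s (nrm s) → (∀ k, k ≠ nrm s → slo s k < x k ∧ x k < shi s k) →
    ∀ e, x ∉ Icc (w (a e)) (w (b e))
  sq_bd : ∀ s, ∀ x ∈ Icc (slo s) (shi s), (∃ k, k ≠ nrm s ∧ (x k = slo s k ∨ x k = shi s k)) →
    ∃ e, Icc (w (a e)) (w (b e)) ⊆ Icc (slo s) (shi s) ∧ x ∈ Icc (w (a e)) (w (b e))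
  sqo_tile : ∀ s p x, x (nrm s) = slo s (nrm s) →
    (∀ k, k ≠ nrm s → slo s k < x k ∧ x k < shi s k) → x ∈ Icc (lo p) (hi p) →
    p = sm s ∨ p = sp s
  sqo_disj : ∀ s s', s ≠ s' → ∀ x, x (nrm s) = slo s (nrm s) →
    (∀ k, k ≠ nrm s → slo s k < x k ∧ x k < shi s k) → x ∉ Icc (slo s') (shi s')
  face_cover : ∀ p, ∀ x ∈ Icc (lo p) (hi p), (∃ k, x k = lo p k ∨ x k = hi p k) →
    (∀ e, x ∉ Icc (w (a e)) (w (b e))) →
    ∃ s, (p = sm s ∨ p = sp s) ∧ x (nrm s) = slo s (nrm s) ∧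
      ∀ k, k ≠ nrm s → slo s k < x k ∧ x k < shi s k

/-- **TM-A (TILES)** -/
def SpecTilesCx : Prop :=
  ∀ (Λ : Set V) (ρ : V → ℝ) (v : V), IsOpen Λ → Net.SizeFn Λ ρ →
    ∃ K : BoxCx Λ v, (∀ m z, Net.IsTile ρ v m z → ∃ p, Icc (K.lo p) (K.hi p) = Net.dyc v m z) ∧
      ∀ p, ∃ m z, Net.IsTile ρ v m z ∧ Icc (K.lo p) (K.hi p) = Net.dyc v m z

namespace BoxCx

variable {Λ : Set V} {v : V} (K : BoxCx Λ v)

/-- the closed tile -/
def cube (p : K.T) : Set V := Icc (K.lo p) (K.hi p)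

/-- the edge -/
def edge (e : K.G) : Set V := Icc (K.w (K.a e)) (K.w (K.b e))

/-- the closed square -/
def sq (s : K.S) : Set V := Icc (K.slo s) (K.shi s)

/-- the relative interior of the square -/
def sqo (s : K.S) : Set V :=
  {x | x (K.nrm s) = K.slo s (K.nrm s) ∧ ∀ k, k ≠ K.nrm s → K.slo s k < x k ∧ x k < K.shi s k}

/-- the closed sup-neighbourhood of radius `t` of the edge `e` -/
def nb (e : K.G) (t : ℝ) : Set V :=
  {x | ∀ k, K.w (K.a e) k - t ≤ x k ∧ x k ≤ K.w (K.b e) k + t}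

/-- the open sup-neighbourhood of radius `t` of the edge `e` -/
def nbo (e : K.G) (t : ℝ) : Set V :=
  {x | ∀ k, K.w (K.a e) k - t < x k ∧ x k < K.w (K.b e) k + t}

/-- Radii. All conditions about the cubes of radius `2 r i` and the tubes of radius `2 q e`. -/
structure Sizes where
  r : K.W → ℝ
  q : K.G → ℝ
  /-- margin of the squares -/
  μ : K.S → ℝ
  r_dy : ∀ i, ∃ n : ℕ, r i = 1 / 2 ^ n
  q_dy : ∀ e, ∃ n : ℕ, q e = 1 / 2 ^ n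
  μ_pos : ∀ s, 0 < μ s
  q_le : ∀ e, 8 * q e ≤ r (K.a e) ∧ 8 * q e ≤ r (K.b e)
  μ_lt : ∀ s e, K.edge e ⊆ K.sq s → 4 * μ s < q e
  U_sub : ∀ i, closedBall (K.w i) (2 * r i) ⊆ Λ
  U_disj : ∀ i i', i ≠ i' → Disjoint (closedBall (K.w i) (2 * r i)) (closedBall (K.w i') (2 * r i'))
  U_tile : ∀ i p, ∀ x ∈ closedBall (K.w i) (2 * r i), x ∈ K.cube p → K.w i ∈ K.cube p ∧
    ∀ k, (K.w i k ≠ K.lo p k → K.lo p k < K.w i k - 2 * r i) ∧
      (K.w i k ≠ K.hi p k → K.w i k + 2 * r i < K.hi p k)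
  U_edge : ∀ i e, ∀ x ∈ closedBall (K.w i) (2 * r i), x ∈ K.nb e (2 * q e) → i = K.a e ∨ i = K.b e
  tube_sub : ∀ e, K.nb e (2 * q e) ⊆ Λ
  tube_tile : ∀ e p, ∀ x ∈ K.nb e (2 * q e), x ∈ K.cube p →
    x ∉ ball (K.w (K.a e)) (r (K.a e) / 2) → x ∉ ball (K.w (K.b e)) (r (K.b e) / 2) →
    K.edge e ⊆ K.cube p ∧ ∀ k, k ≠ K.dir e →
      (K.w (K.a e) k ≠ K.lo p k → K.lo p k < K.w (K.a e) k - 2 * q e) ∧
      (K.w (K.a e) k ≠ K.hi p k → K.w (K.a e) k + 2 * q e < K.hi p k)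
  tube_disj : ∀ e e', e ≠ e' → ∀ x ∈ K.nb e (2 * q e), x ∈ K.nb e' (2 * q e') →
    ∃ i, (i = K.a e ∨ i = K.b e) ∧ (i = K.a e' ∨ i = K.b e') ∧ x ∈ ball (K.w i) (r i / 2)
  /-- the closed neighbourhood of radius `2 μ s` of the square `s` sees only vertices and edges in
  `s` -/
  μ_sub : ∀ s x, (∀ k, K.slo s k - 2 * μ s ≤ x k ∧ x k ≤ K.shi s k + 2 * μ s) → x ∈ Λ
  μ_U : ∀ s i, ∀ x ∈ closedBall (K.w i) (2 * r i),
    (∀ k, K.slo s k - 2 * μ s ≤ x k ∧ x k ≤ K.shi s k + 2 * μ s) → K.w i ∈ K.sq s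
  μ_tube : ∀ s e, ∀ x ∈ K.nb e (2 * q e),
    (∀ k, K.slo s k - 2 * μ s ≤ x k ∧ x k ≤ K.shi s k + 2 * μ s) →
    x ∉ ball (K.w (K.a e)) (r (K.a e) / 2) → x ∉ ball (K.w (K.b e)) (r (K.b e) / 2) →
    K.edge e ⊆ K.sq s
  lfU : LF (fun i => closedBall (K.w i) (2 * r i)) Λ
  lfTube : LF (fun e => K.nb e (2 * q e)) Λ

/-- **TM-B (SIZES)** -/
def SpecSizes : Prop :=
  ∀ (Λ : Set V) (v : V) (K : BoxCx Λ v) (Z : Set V), IsOpen Λ → Z ⊆ Λ → closure Z ∩ Λ ⊆ Z →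
    (∀ x ∈ Z, ∀ e, x ∉ K.edge e) →
    ∃ s : K.Sizes, ∀ x ∈ Z, (∀ i, x ∉ closedBall (K.w i) (2 * s.r i)) ∧
      ∀ e, x ∉ K.nb e (2 * s.q e)

namespace Sizes

variable {K} (s : K.Sizes) (c : ℝ)

/-- closed cube around the vertex -/
def box (i : K.W) : Set V := closedBall (K.w i) (c * s.r i)

/-- closed beam around the edge -/
def beam (e : K.G) : Set V := K.nb e (c * s.q e)

/-- the neighbourhood of the graph -/
def H : Set V := (⋃ i, s.box c i) ∪ ⋃ e, s.beam c e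

/-- its interior -/
def Hin : Set V := (⋃ i, ball (K.w i) (c * s.r i)) ∪ ⋃ e, K.nbo e (c * s.q e)

/-- its frontier -/
def F : Set V := s.H c \ s.Hin c

/-- the cell of the tile -/
def RT (p : K.T) : Set V := K.cube p \ s.Hin c

/-- where the beams are cut -/
noncomputable def ca (e : K.G) : ℝ := K.w (K.a e) (K.dir e) + 5 / 4 * s.r (K.a e)

/-- where the beams are cut -/
noncomputable def cb (e : K.G) : ℝ := K.w (K.b e) (K.dir e) - 5 / 4 * s.r (K.b e)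

/-- the cell of the edge -/
def RG (e : K.G) : Set V := {x ∈ s.beam c e | s.ca e ≤ x (K.dir e) ∧ x (K.dir e) ≤ s.cb e}

/-- the cell of the vertex: cube and stubs -/
def RV (i : K.W) : Set V :=
  s.box c i ∪ (⋃ (e) (_ : K.a e = i), {x ∈ s.beam c e | x (K.dir e) ≤ s.ca e}) ∪
    ⋃ (e) (_ : K.b e = i), {x ∈ s.beam c e | s.cb e ≤ x (K.dir e)}

/-- the cells -/
def R : K.T ⊕ K.W ⊕ K.G → Set V := Sum.elim (s.RT c) (Sum.elim (s.RV c) (s.RG c))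

/-- the cutting discs: two ends of every edge (inside `H`), and the squares (outside `H`) -/
def D (K : BoxCx Λ v) : Type := (K.G × Bool) ⊕ K.S

/-- parametrisation of the flat rectangle around a disc (coordinates inserted at the normal
direction) -/
noncomputable def par : D K → P2 → V
  | .inl (e, β) => fun y => Fin.insertNth (α := fun _ => ℝ) (K.dir e) (if β then s.cb e else s.ca e)
      (fun j => K.w (K.a e) ((K.dir e).succAbove j) + 2 * (c * s.q e) * y j)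
  | .inr t => fun y => Fin.insertNth (α := fun _ => ℝ) (K.nrm t) (K.slo t (K.nrm t))
      (fun j => (K.slo t ((K.nrm t).succAbove j) + K.shi t ((K.nrm t).succAbove j)) / 2 +
        ((K.shi t ((K.nrm t).succAbove j) - K.slo t ((K.nrm t).succAbove j)) / 2 - s.μ t) * y j)

/-- the disc in the parameter square -/
def Δ : D K → Set P2
  | .inl _ => closedBall 0 (1 / 2)
  | .inr t => {y ∈ Q0 | s.par c (.inr t) y ∉ s.Hin c}

/-- its boundary -/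
def ζ : D K → Set P2
  | .inl _ => sphere 0 (1 / 2)
  | .inr t => {y ∈ Q0 | s.par c (.inr t) y ∈ s.F c}

/-- the normal vector, with the length of the vertical part of `F` -/
noncomputable def n : D K → V
  | .inl (e, β) => Pi.single (K.dir e)
      (if β then s.r (K.b e) / 8 else s.r (K.a e) / 8)
  | .inr t => Pi.single (K.nrm t) (s.μ t)

/-- the disc is outside `H` -/
def out : D K → Prop
  | .inl _ => False
  | .inr _ => True

/-- basic facts about `H` and the cells -/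
structure BasicFacts : Prop where
  H_sub : s.H c ⊆ Λ
  H_closed : closure (s.H c) ∩ Λ ⊆ s.H c
  H_interior : interior (s.H c) = s.Hin c
  H_frontier : frontier (s.H c) ∩ Λ = s.F c
  H_int : (interior (s.H c)).Nonempty
  H_ne : (Λ \ s.H c).Nonempty
  cover : ⋃ j, s.R c j = Λ
  lf : LF (s.R c) Λ
  sep : ∀ i j, i ≠ j → s.R c i ∩ s.R c j ⊆ frontier (s.R c i)
  frT : ∀ p, frontier (s.RT c p) =
    {x ∈ s.RT c p | x ∈ s.F c ∨ ∃ k, x k = K.lo p k ∨ x k = K.hi p k}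
  frV : ∀ i, frontier (s.RV c i) = {x ∈ s.RV c i | x ∈ s.F c ∨
    (∃ e, K.a e = i ∧ x ∈ s.beam c e ∧ x (K.dir e) = s.ca e) ∨
    ∃ e, K.b e = i ∧ x ∈ s.beam c e ∧ x (K.dir e) = s.cb e}
  frG : ∀ e, frontier (s.RG c e) = {x ∈ s.RG c e | x ∈ s.F c ∨ x (K.dir e) = s.ca e ∨
    x (K.dir e) = s.cb e}

/-- the cells are balls -/
def BallFacts : Prop := ∀ j, ConBall 3 (s.R c j) (frontier (s.R c j))

/-- facts about the cutting discs -/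
structure DiscFacts : Prop where
  par_affine : ∀ d, ∃ ι : P2 →ᴬ[ℝ] V, ∀ y, ι y = s.par c d y
  n_ind : ∀ d u u' (t : ℝ), s.par c d u + t • s.n d = s.par c d u' → t = 0 ∧ u = u'
  Q_sub : ∀ d, s.par c d '' Q0 ⊆ Λ
  Q_lf : LF (fun d => s.par c d '' Q0) Λ
  Q_disj : ∀ d d' : D K, (out d ↔ out d') → d ≠ d' →
    Disjoint (s.par c d '' Q0) (s.par c d' '' Q0)
  center : ∀ d d' : D K, d ≠ d' → s.par c d 0 ∉ s.par c d' '' Q0
  Δ_ball : ∀ d, ConBall 2 (s.Δ c d) (s.ζ c d)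
  Δ_sub : ∀ d, s.Δ c d ⊆ ball 0 1
  zero_mem : ∀ d, (0 : P2) ∈ s.Δ c d ∧ (0 : P2) ∉ s.ζ c d
  ζ_sub : ∀ d, s.par c d '' s.ζ c d ⊆ s.F c
  out_in : ∀ d : D K, out d → (∀ y ∈ s.Δ c d, y ∉ s.ζ c d → s.par c d y ∉ s.H c) ∧
    ∀ y ∈ Q0, y ∉ s.Δ c d → s.par c d y ∈ s.Hin c
  in_in : ∀ d : D K, ¬ out d → (∀ y ∈ s.Δ c d, y ∉ s.ζ c d → s.par c d y ∈ s.Hin c) ∧
    ∀ y ∈ Q0, y ∉ s.Δ c d → s.par c d y ∉ s.H c
  Ann_sub : ∀ d, ∀ y ∈ s.ζ c d, ∀ t ∈ Icc (-1:ℝ) 1, s.par c d y + t • s.n d ∈ s.F c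
  Ann_open : ∀ d, ∃ U : Set V, IsOpen U ∧
    U ∩ s.F c = {x | ∃ y ∈ s.ζ c d, ∃ t ∈ Ioo (-1:ℝ) 1, x = s.par c d y + t • s.n d}
  X_eq : ⋃ j, frontier (s.R c j) = s.F c ∪ ⋃ d, s.par c d '' s.Δ c d
  usedD : ∀ d, ∃ j, s.par c d '' s.Δ c d ⊆ frontier (s.R c j)
  offD : ∀ d j, ¬ s.par c d '' s.Δ c d ⊆ frontier (s.R c j) →
    s.par c d '' s.Δ c d ∩ s.R c j ⊆ s.par c d '' s.ζ c d
  p_ex : ∀ j, ∃ p ∈ s.R c j, p ∉ frontier (s.R c j) ∧ ∀ d, p ∉ s.par c d '' Q0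

/-- facts about the pieces of `F` -/
def PieceFacts : Prop :=
  ∃ (AF : Type) (E bE : AF → Set V),
    (∀ a, E a ⊆ s.F c) ∧ LF E Λ ∧ (∀ a, IsPreconnected (E a \ bE a)) ∧ (∀ a, E a ⊆ closure (E a \ bE a)) ∧
    (∀ j, ∀ x ∈ frontier (s.R c j), x ∈ s.F c → ∃ a, E a ⊆ frontier (s.R c j) ∧ x ∈ E a) ∧
    (∀ a, ∃ j, E a ⊆ frontier (s.R c j)) ∧
    (∀ a j, ¬ E a ⊆ frontier (s.R c j) → E a ∩ s.R c j ⊆ bE a) ∧
    ∀ a, ∃ q ∈ E a, q ∉ bE a ∧ ∀ d, q ∉ s.par c d '' s.ζ c d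

/-- the radial function -/
noncomputable def phi (x : V) : ℝ :=
  sInf (insert 2 ({t | ∃ i, t = ‖x - K.w i‖ / s.r i} ∪ {t | ∃ e, t = infDist x (K.edge e) / s.q e}))

/-- facts about `phi` -/
structure PhiFacts : Prop where
  cont : ContinuousOn s.phi Λ
  lip : ∀ x ∈ Λ, ∃ (C : NNReal) (U : Set V), U ∈ 𝓝 x ∧ LipschitzOnWith C s.phi U
  le : ∀ c ∈ Ioo (1/2:ℝ) 1, {x ∈ Λ | s.phi x ≤ c} = s.H c
  eq : ∀ c ∈ Ioo (1/2:ℝ) 1, {x ∈ Λ | s.phi x = c} = s.F c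
  /-- a point of `F` which has not two special coordinates is a flat point -/
  flat : ∀ c ∈ Ioo (1/2:ℝ) 1, ∀ x ∈ s.F c,
    (∃ k k', k ≠ k' ∧ (∃ A B, IsDy A ∧ IsDy B ∧ B ≠ 0 ∧ x k = v k + A + c * B) ∧
      ∃ A B, IsDy A ∧ IsDy B ∧ B ≠ 0 ∧ x k' = v k' + A + c * B) ∨
    ∃ (k : Fin 3) (σ : ℝ), (σ = 1 ∨ σ = -1) ∧ ∃ δ > 0, ∀ z ∈ ball x δ,
      (s.phi z = c ↔ z k = x k) ∧ (0 < σ * (s.phi z - c) ↔ x k < z k)

end Sizes

/-- **TM-S** -/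
def SpecBasic : Prop :=
  ∀ (Λ : Set V) (v : V) (K : BoxCx Λ v) (s : K.Sizes) (c : ℝ), IsOpen Λ → Λ.Nonempty →
    c ∈ Ioo (1/2:ℝ) 1 → s.BasicFacts c

/-- **TM-C** -/
def SpecBalls : Prop :=
  SpecALX → ∀ (Λ : Set V) (v : V) (K : BoxCx Λ v) (s : K.Sizes) (c : ℝ), IsOpen Λ → Λ.Nonempty →
    c ∈ Ioo (1/2:ℝ) 1 → s.BasicFacts c → s.BallFacts c

/-- **TM-D** -/
def SpecDiscs : Prop :=
  ∀ (Λ : Set V) (v : V) (K : BoxCx Λ v) (s : K.Sizes) (c : ℝ), IsOpen Λ → Λ.Nonempty →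
    c ∈ Ioo (1/2:ℝ) 1 → s.BasicFacts c → s.DiscFacts c

/-- **TM-E** -/
def SpecPieces : Prop :=
  ∀ (Λ : Set V) (v : V) (K : BoxCx Λ v) (s : K.Sizes) (c : ℝ), IsOpen Λ → Λ.Nonempty →
    c ∈ Ioo (1/2:ℝ) 1 → s.BasicFacts c → s.PieceFacts c

/-- **TM-F** -/
def SpecPhi : Prop :=
  ∀ (Λ : Set V) (v : V) (K : BoxCx Λ v) (s : K.Sizes), IsOpen Λ → Λ.Nonempty → s.PhiFacts

end BoxCx

end P073.PA691
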