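import Vale.Agent.P073.PA691.TMSpec

/-!
# P073, block PA, TT: general lemmas
-/

open Set Metric Topology Filter

namespace P073.PA691

open P073 PR720
open Vale.Agent.P073.St (V IsInv)

/-- a connected set which misses the frontiers of the cells is inside one cell -/
theorem subset_interior_of_preconn {R : Set V} (hR : IsClosed R) {A : Set V}
    (hA : IsPreconnected A) (hd : Disjoint A (frontier R)) {x : V} (hx : x ∈ A) (hxR : x ∈ R) :
    A ⊆ interior R := by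
  have key : ∀ y ∈ A, y ∈ R → y ∈ interior R := by
    intro y hy hyR
    by_contra h
    exact Set.disjoint_left.1 hd hy (by rw [hR.frontier_eq]; exact ⟨hyR, h⟩)
  refine IsPreconnected.subset_left_of_subset_union isOpen_interior hR.isOpen_compl
    (Set.disjoint_left.2 fun y h1 h2 => h2 (interior_subset h1)) ?_ ⟨x, hx, key x hx hxR⟩ hA
  intro y hy
  by_cases hyR : y ∈ R
  · exact Or.inl (key y hy hyR)
  · exact Or.inr hyR

/-- the image of a relatively closed set under a homeomorphism is relatively closed -/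
theorem closed_image_of_inv {Ω Λ : Set V} {f g : V → V} (h : IsInv Ω Λ f g)
    (hg : ContinuousOn g Λ) {P : Set V} (hPΩ : P ⊆ Ω) (hP : closure P ∩ Ω ⊆ P) :
    closure (f '' P) ∩ Λ ⊆ f '' P := by
  rintro z ⟨hz, hzΛ⟩
  have hsub : f '' P ⊆ Λ := by
    rintro _ ⟨x, hx, rfl⟩
    exact (h.1 x (hPΩ hx)).1
  have h2 : g '' (f '' P) = P := by
    ext x
    constructor
    · rintro ⟨_, ⟨y, hy, rfl⟩, rfl⟩
      rw [(h.1 y (hPΩ hy)).2]
      exact hy
    · intro hx
      exact ⟨f x, mem_image_of_mem _ hx, (h.1 x (hPΩ hx)).2⟩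
  have h1 : g z ∈ closure (g '' (f '' P)) :=
    (((hg z hzΛ).mono hsub).mem_closure_image hz)
  rw [h2] at h1
  have h3 : g z ∈ P := hP ⟨h1, (h.2 z hzΛ).1⟩
  exact ⟨g z, h3, (h.2 z hzΛ).2⟩

/-- sample points between the points of a finite set -/
theorem exists_samples {B : Set ℝ} (hB : B.Finite) : ∃ T : Set ℝ, T.Finite ∧ T ⊆ Icc 0 1 ∧
    Disjoint T B ∧ ∀ t ∈ Icc (0:ℝ) 1, ∃ m ∈ T, ∀ u ∈ uIcc t m, u ∈ B → u = t := by
  have hB' : (B ∪ {0, 1}).Finite := hB.union (by simp)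
  refine ⟨((fun p : ℝ × ℝ => (p.1 + p.2) / 2) '' ((B ∪ {0, 1}) ×ˢ (B ∪ {0, 1}))) ∩ (Icc 0 1 \ B),
    ((hB'.prod hB').image _).inter_of_left _, fun x hx => hx.2.1,
    Set.disjoint_left.2 fun x hx => hx.2.2, fun t ht => ?_⟩
  rcases lt_or_eq_of_le ht.2 with h1 | h1
  · -- `t < 1`
    have hU : ((B ∪ {0, 1}) ∩ Ioi t).Finite := hB'.inter_of_left _
    have hL : ((B ∪ {0, 1}) ∩ Iic t).Finite := hB'.inter_of_left _
    obtain ⟨y, hy, hymin⟩ := hU.isCompact.exists_isLeast ⟨1, by simp, h1⟩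
    obtain ⟨x, hx, hxmax⟩ := hL.isCompact.exists_isGreatest ⟨0, by simp, ht.1⟩
    have hxt : x ≤ t := hx.2
    have hty : t < y := hy.2
    have hy1 : y ≤ 1 := hymin ⟨by simp, h1⟩
    have hx0 : 0 ≤ x := hxmax ⟨by simp, ht.1⟩
    have hno : ∀ b ∈ B, b ≤ x ∨ y ≤ b := by
      intro b hb
      rcases le_or_gt b t with h | h
      · exact Or.inl (hxmax ⟨Or.inl hb, h⟩)
      · exact Or.inr (hymin ⟨Or.inl hb, h⟩)
    refine ⟨(x + y) / 2, ⟨⟨(x, y), ⟨hx.1, hy.1⟩, rfl⟩, ⟨by linarith, by linarith⟩, fun hb => ?_⟩,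
      fun u hu hub => ?_⟩
    · rcases hno _ hb with h | h <;> linarith
    · rcases mem_uIcc.1 hu with hu | hu <;> rcases hno u hub with h | h <;> linarith [hu.1, hu.2]
  · subst h1
    have hL : ((B ∪ {0, 1}) ∩ Iio (1:ℝ)).Finite := hB'.inter_of_left _
    obtain ⟨x, hx, hxmax⟩ := hL.isCompact.exists_isGreatest ⟨0, by simp, by simp⟩
    have hxt : x < 1 := hx.2
    have hx0 : 0 ≤ x := hxmax ⟨by simp, by simp⟩
    refine ⟨(x + 1) / 2, ⟨⟨(x, 1), ⟨hx.1, by simp⟩, rfl⟩, ⟨by linarith, by linarith⟩, fun hb => ?_⟩,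
      fun u hu hub => ?_⟩
    · have := hxmax ⟨Or.inl hb, show (x + 1) / 2 < 1 by linarith⟩
      linarith
    · rcases mem_uIcc.1 hu with hu | hu
      · linarith [hu.1, hu.2]
      · rcases lt_or_eq_of_le hu.2 with h | h
        · have := hxmax ⟨Or.inl hub, h⟩
          linarith [hu.1]
        · exact h

end P073.PA691
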