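import Vale.Agent.P073.PA691.TTa
import Vale.Agent.P073.PA691.MkHandle

/-!
# P073, block PA, TT: lemmas about the model
-/

open Set Metric Topology Filter

namespace P073.PA691

open P073 PR720
open Vale.Agent.P073.St (V IsInv)

theorem IsDy.add {x y : ℝ} (hx : IsDy x) (hy : IsDy y) : IsDy (x + y) := by
  obtain ⟨z, m, rfl⟩ := hx
  obtain ⟨z', m', rfl⟩ := hy
  refine ⟨z * 2 ^ m' + z' * 2 ^ m, m + m', ?_⟩
  push_cast
  rw [pow_add]
  field_simp

theorem IsDy.neg {x : ℝ} (hx : IsDy x) : IsDy (-x) := by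
  obtain ⟨z, m, rfl⟩ := hx
  exact ⟨-z, m, by push_cast; ring⟩

theorem IsDy.sub {x y : ℝ} (hx : IsDy x) (hy : IsDy y) : IsDy (x - y) := by
  rw [sub_eq_add_neg]; exact hx.add hy.neg

theorem isDy_five_four {x : ℝ} (hx : ∃ n : ℕ, x = 1 / 2 ^ n) : IsDy (5 / 4 * x) := by
  obtain ⟨n, rfl⟩ := hx
  refine ⟨5, n + 2, ?_⟩
  push_cast
  rw [pow_add]
  field_simp
  norm_num

namespace TT

open BoxCx BoxCx.Sizes

variable {Λ : Set V} {v : V} {K : BoxCx Λ v}

theorem sm_ne_sp (t : K.S) : K.sm t ≠ K.sp t := by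
  intro h
  have h1 := (K.s_lev t).1
  have h2 := (K.s_lev t).2
  rw [h] at h1
  have := K.lt (K.sp t) (K.nrm t)
  rw [h1, h2] at this
  exact lt_irrefl _ this

theorem slo_mem (t : K.S) : K.slo t ∈ K.sq t :=
  ⟨le_rfl, fun k => by
    by_cases hk : k = K.nrm t
    · rw [hk, K.s_flat t]
    · exact (K.s_lt t k hk).le⟩

theorem shi_mem (t : K.S) : K.shi t ∈ K.sq t := ⟨(slo_mem t).2, le_rfl⟩

theorem sqo_sub_sq (t : K.S) : K.sqo t ⊆ K.sq t := by
  rintro x ⟨h1, h2⟩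
  refine ⟨fun k => ?_, fun k => ?_⟩
  · by_cases hk : k = K.nrm t
    · rw [hk, h1]
    · exact (h2 k hk).1.le
  · by_cases hk : k = K.nrm t
    · rw [hk, h1, K.s_flat t]
    · exact (h2 k hk).2.le

theorem sq_sub (t : K.S) : K.sq t ⊆ K.cube (K.sm t) ∩ K.cube (K.sp t) := (K.s_eq t).le

theorem not_open_of_sqo (t : K.S) {x : V} (hx : x ∈ K.sqo t) (p : K.T)
    (hp : ∀ k, K.lo p k < x k ∧ x k < K.hi p k) : False := by
  have h := sq_sub t (sqo_sub_sq t hx)
  have h1 : K.sm t = p := by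
    by_contra hne
    exact K.dis p (K.sm t) (Ne.symm hne) x hp h.1
  have h2 : K.sp t = p := by
    by_contra hne
    exact K.dis p (K.sp t) (Ne.symm hne) x hp h.2
  exact sm_ne_sp t (h1.trans h2.symm)

theorem unique_open {x : V} {p q : K.T} (hp : ∀ k, K.lo p k < x k ∧ x k < K.hi p k)
    (hq : x ∈ K.cube q) : q = p := by
  by_contra hne
  exact K.dis p q (Ne.symm hne) x hp hq

theorem open_mem_cube {x : V} {p : K.T} (hp : ∀ k, K.lo p k < x k ∧ x k < K.hi p k) :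
    x ∈ K.cube p := ⟨fun k => (hp k).1.le, fun k => (hp k).2.le⟩

/-- near a point of an open square, the two tiles are the two half spaces -/
theorem sqo_near (t : K.S) {x : V} (hx : x ∈ K.sqo t) : ∃ U ∈ 𝓝 x, ∀ z ∈ U,
    (K.slo t (K.nrm t) < z (K.nrm t) → ∀ k, K.lo (K.sp t) k < z k ∧ z k < K.hi (K.sp t) k) ∧
    (z (K.nrm t) < K.slo t (K.nrm t) → ∀ k, K.lo (K.sm t) k < z k ∧ z k < K.hi (K.sm t) k) := by
  have hlo := sq_sub t (slo_mem t)
  have hhi := sq_sub t (shi_mem t)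
  refine ⟨{z | (∀ k, k ≠ K.nrm t → K.slo t k < z k ∧ z k < K.shi t k) ∧
    K.lo (K.sm t) (K.nrm t) < z (K.nrm t) ∧ z (K.nrm t) < K.hi (K.sp t) (K.nrm t)}, ?_, ?_⟩
  · have h1 : ∀ k, ∀ᶠ z : V in 𝓝 x, k ≠ K.nrm t → K.slo t k < z k ∧ z k < K.shi t k := by
      intro k
      by_cases hk : k = K.nrm t
      · exact Eventually.of_forall fun z h => absurd hk h
      · have hc : ContinuousAt (fun z : V => z k) x := (continuous_apply k).continuousAt
        filter_upwards [hc.eventually_const_lt (hx.2 k hk).1,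
          hc.eventually_lt_const (hx.2 k hk).2] with z h1 h2 _ using ⟨h1, h2⟩
    have hc : ContinuousAt (fun z : V => z (K.nrm t)) x := (continuous_apply _).continuousAt
    have h2 : K.lo (K.sm t) (K.nrm t) < x (K.nrm t) := by
      rw [hx.1, ← (K.s_lev t).1]; exact K.lt _ _
    have h3 : x (K.nrm t) < K.hi (K.sp t) (K.nrm t) := by
      rw [hx.1, ← (K.s_lev t).2]; exact K.lt _ _
    filter_upwards [eventually_all.2 h1, hc.eventually_const_lt h2,
      hc.eventually_lt_const h3] with z a b c using ⟨a, b, c⟩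
  · rintro z ⟨h1, h2, h3⟩
    refine ⟨fun h k => ?_, fun h k => ?_⟩
    · by_cases hk : k = K.nrm t
      · subst hk
        rw [(K.s_lev t).2]
        exact ⟨h, h3⟩
      · exact ⟨(hlo.2.1 k).trans_lt (h1 k hk).1, (h1 k hk).2.trans_le (hhi.2.2 k)⟩
    · by_cases hk : k = K.nrm t
      · subst hk
        rw [(K.s_lev t).1]
        exact ⟨h2, h⟩
      · exact ⟨(hlo.1.1 k).trans_lt (h1 k hk).1, (h1 k hk).2.trans_le (hhi.1.2 k)⟩

variable (s : K.Sizes) (c : ℝ)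

/-- the normal direction of a disc -/
def pk : D K → Fin 3
  | .inl (e, _) => K.dir e
  | .inr t => K.nrm t

/-- the level of a disc -/
noncomputable def plev : D K → ℝ
  | .inl (e, β) => if β then s.cb e else s.ca e
  | .inr t => K.slo t (K.nrm t)

theorem par_plane (d : D K) (y : P2) : s.par c d y (pk d) = plev s d := by
  rcases d with ⟨e, β⟩ | t
  · show Fin.insertNth (α := fun _ => ℝ) (K.dir e) _ _ (K.dir e) = _
    rw [Fin.insertNth_apply_same]
    rfl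
  · show Fin.insertNth (α := fun _ => ℝ) (K.nrm t) _ _ (K.nrm t) = _
    rw [Fin.insertNth_apply_same]
    rfl

theorem plev_dy (d : D K) : IsDy (plev s d - v (pk d)) := by
  rcases d with ⟨e, β⟩ | t
  · show IsDy ((if β then s.cb e else s.ca e) - v (K.dir e))
    split_ifs
    · have h := (K.w_dy (K.b e) (K.dir e)).sub (isDy_five_four (s.r_dy (K.b e)))
      have e1 : s.cb e - v (K.dir e) =
          K.w (K.b e) (K.dir e) - v (K.dir e) - 5 / 4 * s.r (K.b e) := by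
        unfold cb; ring
      rw [e1]; exact h
    · have h := (K.w_dy (K.a e) (K.dir e)).add (isDy_five_four (s.r_dy (K.a e)))
      have e1 : s.ca e - v (K.dir e) =
          K.w (K.a e) (K.dir e) - v (K.dir e) + 5 / 4 * s.r (K.a e) := by
        unfold ca; ring
      rw [e1]; exact h
  · exact K.s_dy t

variable {s c}

theorem q_pos (s : K.Sizes) (e : K.G) : 0 < s.q e := by
  obtain ⟨n, hn⟩ := s.q_dy e
  rw [hn]; positivity

theorem edge_sub_Hin (hc : 0 < c) (e : K.G) : K.edge e ⊆ s.Hin c := by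
  intro x hx
  refine Or.inr (mem_iUnion.2 ⟨e, fun k => ?_⟩)
  have := mul_pos hc (q_pos s e)
  exact ⟨by linarith [hx.1 k], by linarith [hx.2 k]⟩

theorem RV_sub_H (i : K.W) : s.RV c i ⊆ s.H c := by
  rintro x ((hx | hx) | hx)
  · exact Or.inl (mem_iUnion.2 ⟨i, hx⟩)
  · obtain ⟨e, -, he⟩ := mem_iUnion₂.1 hx
    exact Or.inr (mem_iUnion.2 ⟨e, he.1⟩)
  · obtain ⟨e, -, he⟩ := mem_iUnion₂.1 hx
    exact Or.inr (mem_iUnion.2 ⟨e, he.1⟩)

theorem RG_sub_H (e : K.G) : s.RG c e ⊆ s.H c := fun _ hx => Or.inr (mem_iUnion.2 ⟨e, hx.1⟩)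

/-- a point of a cell which is not in `H` is in the cell of a tile -/
theorem tile_of_notMem_H {j : K.T ⊕ K.W ⊕ K.G} {x : V} (hx : x ∈ s.R c j) (hH : x ∉ s.H c) :
    ∃ p, j = .inl p := by
  rcases j with p | i | e
  · exact ⟨p, rfl⟩
  · exact absurd (RV_sub_H i hx) hH
  · exact absurd (RG_sub_H e hx) hH

theorem open_of_interior (hB : s.BasicFacts c) {p : K.T} {x : V}
    (hx : x ∈ interior (s.RT c p)) : ∀ k, K.lo p k < x k ∧ x k < K.hi p k := by
  intro k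
  have h1 : x ∈ s.RT c p := interior_subset hx
  have h2 : x ∉ frontier (s.RT c p) := fun h => h.2 hx
  rw [hB.frT] at h2
  refine ⟨lt_of_le_of_ne (h1.1.1 k) fun h => h2 ⟨h1, Or.inr ⟨k, Or.inl h.symm⟩⟩,
    lt_of_le_of_ne (h1.1.2 k) fun h => h2 ⟨h1, Or.inr ⟨k, Or.inr h⟩⟩⟩

theorem Hin_sub_H (hB : s.BasicFacts c) : s.Hin c ⊆ s.H c := by
  rw [← hB.H_interior]; exact interior_subset

theorem sqo_of_mem_X (hc : 0 < c) (hB : s.BasicFacts c) (hR : s.BallFacts c) {x : V}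
    (hx : x ∈ ⋃ j, frontier (s.R c j)) (hH : x ∉ s.H c) : ∃ t, x ∈ K.sqo t := by
  obtain ⟨j, hj⟩ := mem_iUnion.1 hx
  have hxR : x ∈ s.R c j := (hR j).isClosed.frontier_subset hj
  obtain ⟨p, rfl⟩ := tile_of_notMem_H hxR hH
  have h1 : x ∈ frontier (s.RT c p) := hj
  rw [hB.frT] at h1
  obtain ⟨h2, h3⟩ := h1
  have h4 : ∃ k, x k = K.lo p k ∨ x k = K.hi p k := by
    rcases h3 with h3 | h3
    · exact absurd h3.1 hH
    · exact h3
  obtain ⟨t, -, ht⟩ := K.face_cover p x h2.1 h4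
    (fun e he => hH (Hin_sub_H hB (edge_sub_Hin hc e he)))
  exact ⟨t, ht⟩

theorem mem_par_of_mem_X (hB : s.BasicFacts c) (hD : s.DiscFacts c) {x : V}
    (hx : x ∈ ⋃ j, frontier (s.R c j)) (hH : x ∉ s.H c) : ∃ d, x ∈ s.par c d '' Q0 := by
  rw [hD.X_eq] at hx
  rcases hx with hx | hx
  · exact absurd hx.1 hH
  · obtain ⟨d, y, hy, rfl⟩ := mem_iUnion.1 hx
    exact ⟨d, y, ball_subset_closedBall (hD.Δ_sub d hy), rfl⟩

end TT

theorem LF.finite_inter {ι : Type*} {A : ι → Set V} {W C : Set V} (h : LF A W)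
    (hC : IsCompact C) (hCW : C ⊆ W) : {i | (A i ∩ C).Nonempty}.Finite := by
  choose! U hU hfin using fun z (hz : z ∈ C) => h z (hCW hz)
  obtain ⟨t, ht, htC⟩ := hC.elim_nhds_subcover U hU
  refine (t.finite_toSet.biUnion fun z hz => hfin z (ht z hz)).subset ?_
  rintro i ⟨x, hxA, hxC⟩
  obtain ⟨z, hz, hxz⟩ := mem_iUnion₂.1 (htC hxC)
  exact mem_biUnion hz ⟨x, hxA, hxz⟩

end P073.PA691
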