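import Vale.Agent.P073.PA691.TMSpec
import Vale.Agent.P073.Spec.Top

/-!
# P073, block PA: statements for the last step (TT)
-/

open Set Metric Topology Filter MeasureTheory

namespace P073.PA691

open P073 PR720
open Vale.Agent.P073.St (V IsInv IsHomeo)
open P073.PLS (Rat3 GoodLevel Surf)

/-- good translations `v` of the dyadic tilings of the target -/
structure GoodV (Ω : Set V) (f : V → V) (o v : V) : Prop where
  /-- the dyadic planes are good levels -/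
  lev : ∀ k A, IsDy A → GoodLevel Ω f (fun z => z k) o (v k + A)
  /-- the images of the rational segments miss the dyadic lines -/
  two : ∀ a ∈ Rat3 o, ∀ b ∈ Rat3 o, segment ℝ a b ⊆ Ω → ∀ x ∈ segment ℝ a b, ∀ k k', k ≠ k' →
    ∀ A A', IsDy A → IsDy A' → ¬ (f x k = v k + A ∧ f x k' = v k' + A')
  /-- the images of the rational segments miss the moving lines -/
  flat : ∃ N : Set ℝ, N.Countable ∧ ∀ c ∉ N, ∀ a ∈ Rat3 o, ∀ b ∈ Rat3 o, segment ℝ a b ⊆ Ω →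
    ∀ x ∈ segment ℝ a b, ∀ k k', k ≠ k' → ∀ A B A' B', IsDy A → IsDy B → IsDy A' → IsDy B' →
      B ≠ 0 → B' ≠ 0 → ¬ (f x k = v k + A + c * B ∧ f x k' = v k' + A' + c * B')

/-- **GENV** -/
def SpecGenV : Prop :=
  ∀ (Ω Λ : Set V) (f : V → V) (o : V), IsOpen Ω → IsOpen Λ → IsHomeo Ω Λ f →
    Top.RatAC o Ω f → ∀ᵐ v : V, GoodV Ω f o v

/-- **THICK** (form (P-F) of PLS) -/
def SpecThick : Prop :=
  ∀ (Ω Λ : Set V) (f g : V → V) (o : V) (φ : V → ℝ) (t : ℝ), IsOpen Ω → IsOpen Λ →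
    IsInv Ω Λ f g → ContinuousOn f Ω → ContinuousOn g Λ → GoodLevel Ω f φ o t →
    Surf Ω Λ f φ o t → CollarInput Ω Λ {z ∈ Λ | φ z = t} f g

/-- **TM-F2** -/
def SpecRectLocal : Prop :=
  ∀ (Λ : Set V) (v : V) (K : BoxCx Λ v) (s : K.Sizes) (c : ℝ), IsOpen Λ → Λ.Nonempty →
    c ∈ Ioo (1/2:ℝ) 1 → MOS.RectLocal (s.F c)

/-- **RECT** (form (P-R) of PLS) for the flat rectangles of the model -/
def SpecRect : Prop :=
  ∀ (Ω Λ : Set V) (f : V → V) (o v : V) (K : BoxCx Λ v) (s : K.Sizes) (c : ℝ) (G : Net.Graph Ω),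
    IsOpen Ω → IsOpen Λ → IsHomeo Ω Λ f → GoodV Ω f o v → c ∈ Ioo (1/2:ℝ) 1 →
    s.BasicFacts c → s.DiscFacts c → (∀ i, G.a i ∈ Rat3 o ∧ G.b i ∈ Rat3 o) →
    (∀ i, ∀ x ∈ segment ℝ (G.a i) (G.b i), f x ∉ s.H c) →
    (∀ d : BoxCx.Sizes.D K, BoxCx.Sizes.out d →
      RectInput Ω f (⋃ i, segment ℝ (G.a i) (G.b i)) (s.par c d)) ∧
    ∀ d : BoxCx.Sizes.D K, ¬ BoxCx.Sizes.out d → RectInput Ω f ∅ (s.par c d)

end P073.PA691
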