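import Vale.Agent.P073.PA691.TTb
import Vale.Agent.P073.PA691.TopSpec
import Vale.Agent.P073.PA285.Exact

/-!
# P073, block PA, TT: the coding
-/

open Set Metric Topology Filter

namespace P073.PA691

open P073 PR720
open Vale.Agent.P073.St (V IsInv IsHomeo)
open P073.PLS (Rat3 GoodLevel)
open Vale.Agent.P073.PA285 (edge_mem_segment mem_segment_edge edge_injective edge_continuous)
open BoxCx BoxCx.Sizes TT

variable {Ω Λ : Set V} {f g : V → V} {o v : V} {K : BoxCx Λ v} {s : K.Sizes} {c : ℝ}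

/-- the parameters of the edge whose image is on one of the flat squares -/
def bad (f : V → V) (s : K.Sizes) (c : ℝ) (G : Net.Graph Ω) (i : G.ι) : Set ℝ :=
  {t | t ∈ Icc (0:ℝ) 1 ∧ ∃ d, f (G.e i t) ∈ s.par c d '' Q0}

theorem finite_bad (hf : ContinuousOn f Ω) (hm : MapsTo f Ω Λ) (hD : s.DiscFacts c)
    (hGV : GoodV Ω f o v) (G : Net.Graph Ω) (hrat : ∀ i, G.a i ∈ Rat3 o ∧ G.b i ∈ Rat3 o)
    (i : G.ι) : (bad f s c G i).Finite := by
  have hC : IsCompact (f '' segment ℝ (G.a i) (G.b i)) := by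
    refine IsCompact.image_of_continuousOn ?_ (hf.mono (G.sub i))
    rw [segment_eq_image]
    exact isCompact_Icc.image (by fun_prop)
  have hCΛ : f '' segment ℝ (G.a i) (G.b i) ⊆ Λ := by
    rintro _ ⟨x, hx, rfl⟩; exact hm (G.sub i hx)
  have hfin := LF.finite_inter hD.Q_lf hC hCΛ
  refine (hfin.biUnion (t := fun d => {t | t ∈ Icc (0:ℝ) 1 ∧ f (G.e i t) (pk d) = plev s d})
    fun d _ => ?_).subset ?_
  · have h1 := (hGV.lev (pk d) _ (plev_dy s d)).fin (G.a i) (hrat i).1 (G.b i) (hrat i).2 (G.sub i)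
    rw [add_sub_cancel] at h1
    refine (h1.preimage (edge_injective G i).injOn).subset ?_
    rintro t ⟨ht, he⟩
    exact ⟨edge_mem_segment G i ht, he⟩
  · rintro t ⟨ht, d, hd⟩
    refine mem_biUnion (show d ∈ {d | _} from ⟨f (G.e i t), hd, mem_image_of_mem f
      (edge_mem_segment G i ht)⟩) ⟨ht, ?_⟩
    obtain ⟨y, -, hy⟩ := hd
    rw [← hy]
    exact par_plane s c d y

/-- the images of the sample points form a closed set -/
theorem closed_samples (hΩ : IsOpen Ω) (G : Net.Graph Ω) (T : G.ι → Set ℝ)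
    (hT : ∀ i, (T i).Finite) (hT1 : ∀ i, T i ⊆ Icc 0 1) :
    closure {x | ∃ i, ∃ m ∈ T i, x = G.e i m} ∩ Ω ⊆ {x | ∃ i, ∃ m ∈ T i, x = G.e i m} := by
  rintro z ⟨hz, hzΩ⟩
  obtain ⟨r, hr, hrΩ⟩ := Metric.nhds_basis_closedBall.mem_iff.1 (hΩ.mem_nhds hzΩ)
  have hfin := G.fin (closedBall z r) hrΩ (isCompact_closedBall z r)
  have h1 : ({x | ∃ i, ∃ m ∈ T i, x = G.e i m} ∩ closedBall z r).Finite := by
    refine (hfin.biUnion (t := fun i => G.e i '' T i) fun i _ => (hT i).image _).subset ?_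
    rintro x ⟨⟨i, m, hm, rfl⟩, hx⟩
    exact mem_biUnion (show i ∈ {i | _} from ⟨G.e i m, edge_mem_segment G i (hT1 i hm), hx⟩)
      (mem_image_of_mem _ hm)
  have h2 : z ∈ closure ({x | ∃ i, ∃ m ∈ T i, x = G.e i m} ∩ closedBall z r) := by
    rw [mem_closure_iff_nhds] at hz ⊢
    intro U hU
    obtain ⟨y, ⟨hy1, hy2⟩, hy3⟩ := hz (U ∩ closedBall z r)
      (inter_mem hU (closedBall_mem_nhds z hr))
    exact ⟨y, hy1, hy3, hy2⟩
  rw [h1.isClosed.closure_eq] at h2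
  exact h2.1

section

variable (hΩ : IsOpen Ω) (hinv : IsInv Ω Λ f g) (hf : ContinuousOn f Ω) (hc : 0 < c)
  (hB : s.BasicFacts c) (hR : s.BallFacts c) (hD : s.DiscFacts c)
  (hGV : GoodV Ω f o v) (G : Net.Graph Ω) (hrat : ∀ i, G.a i ∈ Rat3 o ∧ G.b i ∈ Rat3 o)
  (hmiss : ∀ i, ∀ x ∈ segment ℝ (G.a i) (G.b i), f x ∉ s.H c)
  (T : G.ι → Set ℝ) (hT1 : ∀ i, T i ⊆ Icc 0 1)
  (hT2 : ∀ i, ∀ t ∈ Icc (0:ℝ) 1, ∃ m ∈ T i, ∀ u ∈ uIcc t m, u ∈ bad f s c G i → u = t)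
  (h : ConHomeo Ω Λ)
  (hh1 : ∀ x ∈ Ω, f x ∈ f '' {x | ∃ i, ∃ m ∈ T i, x = G.e i m} → ∀ j, h.toFun x ∈ s.R c j ↔
    f x ∈ s.R c j)
  (hh3 : ∀ x ∈ ⋃ i, segment ℝ (G.a i) (G.b i), h.toFun x ∈ ⋃ j, frontier (s.R c j) ↔
    f x ∈ ⋃ j, frontier (s.R c j))

include hinv hf hB hR hD hmiss hT1 hT2 hh1 hh3 in
/-- between the crossings the coding is right -/
theorem code_generic (i : G.ι) {t : ℝ} (ht : t ∈ Icc (0:ℝ) 1)
    (hX : f (G.e i t) ∉ ⋃ j, frontier (s.R c j)) :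
    ∃ p, (∀ k, K.lo p k < f (G.e i t) k ∧ f (G.e i t) k < K.hi p k) ∧
      (∀ k, K.lo p k < h.toFun (G.e i t) k ∧ h.toFun (G.e i t) k < K.hi p k) ∧
      h.toFun (G.e i t) ∈ s.RT c p := by
  obtain ⟨m, hm, hmb⟩ := hT2 i t ht
  have hsub : uIcc t m ⊆ Icc 0 1 := uIcc_subset_Icc ht (hT1 i hm)
  have hseg : ∀ u ∈ uIcc t m, G.e i u ∈ segment ℝ (G.a i) (G.b i) := fun u hu =>
    edge_mem_segment G i (hsub hu)
  have hΩe : ∀ u ∈ uIcc t m, G.e i u ∈ Ω := fun u hu => G.sub i (hseg u hu)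
  have hnX : ∀ u ∈ uIcc t m, f (G.e i u) ∉ ⋃ j, frontier (s.R c j) := by
    intro u hu hux
    have h1 := mem_par_of_mem_X hB hD hux (hmiss i _ (hseg u hu))
    have h2 := hmb u hu ⟨hsub hu, h1⟩
    rw [h2] at hux
    exact hX hux
  have hpre : IsPreconnected (G.e i '' uIcc t m) :=
    isPreconnected_uIcc.image _ (edge_continuous G i).continuousOn
  have hsubΩ : G.e i '' uIcc t m ⊆ Ω := by rintro _ ⟨u, hu, rfl⟩; exact hΩe u hu
  have hpf : IsPreconnected (f '' (G.e i '' uIcc t m)) := hpre.image _ (hf.mono hsubΩ)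
  have hph : IsPreconnected (h.toFun '' (G.e i '' uIcc t m)) := hpre.image _ (h.cont.mono hsubΩ)
  have hmm : m ∈ uIcc t m := right_mem_uIcc
  have htt : t ∈ uIcc t m := left_mem_uIcc
  have hfm : f (G.e i m) ∈ ⋃ j, s.R c j := by
    rw [hB.cover]; exact (hinv.1 _ (hΩe m hmm)).1
  obtain ⟨j, hj⟩ := mem_iUnion.1 hfm
  have hcl : IsClosed (s.R c j) := (hR j).isClosed
  have hjh : h.toFun (G.e i m) ∈ s.R c j :=
    (hh1 _ (hΩe m hmm) (mem_image_of_mem _ ⟨i, m, hm, rfl⟩) j).2 hj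
  have hdf : Disjoint (f '' (G.e i '' uIcc t m)) (frontier (s.R c j)) := by
    rw [Set.disjoint_left]
    rintro _ ⟨_, ⟨u, hu, rfl⟩, rfl⟩ h1
    exact hnX u hu (mem_iUnion.2 ⟨j, h1⟩)
  have hdh : Disjoint (h.toFun '' (G.e i '' uIcc t m)) (frontier (s.R c j)) := by
    rw [Set.disjoint_left]
    rintro _ ⟨_, ⟨u, hu, rfl⟩, rfl⟩ h1
    exact hnX u hu ((hh3 _ (mem_iUnion.2 ⟨i, hseg u hu⟩)).1 (mem_iUnion.2 ⟨j, h1⟩))
  have hF := subset_interior_of_preconn hcl hpf hdf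
    (mem_image_of_mem _ (mem_image_of_mem _ hmm)) hj (mem_image_of_mem _ (mem_image_of_mem _ htt))
  have hHf := subset_interior_of_preconn hcl hph hdh
    (mem_image_of_mem _ (mem_image_of_mem _ hmm)) hjh (mem_image_of_mem _ (mem_image_of_mem _ htt))
  obtain ⟨p, rfl⟩ := tile_of_notMem_H (interior_subset hF) (hmiss i _ (hseg t htt))
  exact ⟨p, open_of_interior hB hF, open_of_interior hB hHf, interior_subset hHf⟩

include hinv hf hc hB hR hD hmiss hT1 hT2 hh1 hh3 hGV hrat in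
/-- at the crossings the coding is right -/
theorem code_crossing (i : G.ι) {t : ℝ} (ht : t ∈ Icc (0:ℝ) 1) {q : K.S}
    (hX : f (G.e i t) ∈ K.sqo q) : h.toFun (G.e i t) ∈ K.sqo q := by
  have hseg : ∀ u ∈ Icc (0:ℝ) 1, G.e i u ∈ segment ℝ (G.a i) (G.b i) := fun u hu =>
    edge_mem_segment G i hu
  have hlev := hGV.lev (K.nrm q) _ (K.s_dy q)
  rw [add_sub_cancel] at hlev
  have he0 : G.e i 0 = G.a i := by simp [Net.Graph.e]
  have he1 : G.e i 1 = G.b i := by simp [Net.Graph.e]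
  have ht0 : 0 < t := by
    refine lt_of_le_of_ne ht.1 fun h0 => ?_
    rw [← h0, he0] at hX
    exact hlev.rat _ (hrat i).1 (he0 ▸ G.sub i (hseg 0 (by simp))) hX.1
  have ht1 : t < 1 := by
    refine lt_of_le_of_ne ht.2 fun h0 => ?_
    rw [h0, he1] at hX
    exact hlev.rat _ (hrat i).2 (he1 ▸ G.sub i (hseg 1 (by simp))) hX.1
  obtain ⟨σ, hσ, hr, hl⟩ := hlev.sign (G.a i) (hrat i).1 (G.b i) (hrat i).2 (G.sub i) t ht0 ht1 hX.1
  obtain ⟨U, hU, hUq⟩ := sqo_near q hX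
  have hcf : ContinuousWithinAt (fun u => f (G.e i u)) (Icc 0 1) t :=
    (hf _ (G.sub i (hseg t ht))).comp (edge_continuous G i).continuousWithinAt
      (fun u hu => G.sub i (hseg u hu))
  have hch : ContinuousWithinAt (fun u => h.toFun (G.e i u)) (Icc 0 1) t :=
    (h.cont _ (G.sub i (hseg t ht))).comp (edge_continuous G i).continuousWithinAt
      (fun u hu => G.sub i (hseg u hu))
  -- a point on one side
  have key : ∀ p : K.T, ∀ A : Set ℝ, (𝓝[A] t).NeBot → A ⊆ Icc 0 1 →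
      (∀ᶠ u in 𝓝[A] t, ∀ k, K.lo p k < f (G.e i u) k ∧ f (G.e i u) k < K.hi p k) →
      h.toFun (G.e i t) ∈ s.RT c p := by
    intro p A hA hA1 hev
    have hcl : IsClosed (s.RT c p) := (hR (.inl p)).isClosed
    refine hcl.mem_of_tendsto (b := 𝓝[A] t) (hch.mono hA1) ?_
    filter_upwards [hev, self_mem_nhdsWithin] with u hu huA
    have hX' : f (G.e i u) ∉ ⋃ j, frontier (s.R c j) := by
      intro hx
      obtain ⟨q', hq'⟩ := sqo_of_mem_X hc hB hR hx (hmiss i _ (hseg u (hA1 huA)))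
      exact not_open_of_sqo q' hq' p hu
    obtain ⟨p', hp1, -, hp3⟩ := code_generic hinv hf hB hR hD G hmiss T hT1 hT2 h hh1 hh3 i
      (hA1 huA) hX'
    rwa [unique_open hp1 (open_mem_cube hu)]
  have hUev : ∀ A : Set ℝ, A ⊆ Icc 0 1 → ∀ᶠ u in 𝓝[A] t, f (G.e i u) ∈ U := fun A hA =>
    (hcf.mono hA) hU
  have hR1 : (𝓝[Ioo t 1] t).NeBot := by
    rw [← mem_closure_iff_nhdsWithin_neBot, closure_Ioo ht1.ne]; exact ⟨le_rfl, ht1.le⟩
  have hL1 : (𝓝[Ioo 0 t] t).NeBot := by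
    rw [← mem_closure_iff_nhdsWithin_neBot, closure_Ioo ht0.ne]; exact ⟨ht0.le, le_rfl⟩
  have hRs : Ioo t 1 ⊆ Icc 0 1 := fun u hu => ⟨ht0.le.trans hu.1.le, hu.2.le⟩
  have hLs : Ioo 0 t ⊆ Icc 0 1 := fun u hu => ⟨hu.1.le, hu.2.le.trans ht1.le⟩
  have hr' : ∀ᶠ u in 𝓝[Ioo t 1] t, 0 < σ * (f (G.e i u) (K.nrm q) - K.slo q (K.nrm q)) :=
    hr.filter_mono (nhdsWithin_mono _ fun u hu => hu.1)
  have hl' : ∀ᶠ u in 𝓝[Ioo 0 t] t, σ * (f (G.e i u) (K.nrm q) - K.slo q (K.nrm q)) < 0 :=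
    hl.filter_mono (nhdsWithin_mono _ fun u hu => hu.2)
  have both : h.toFun (G.e i t) ∈ s.RT c (K.sm q) ∧ h.toFun (G.e i t) ∈ s.RT c (K.sp q) := by
    rcases hσ with rfl | rfl
    · refine ⟨key _ _ hL1 hLs ?_, key _ _ hR1 hRs ?_⟩
      · filter_upwards [hl', hUev _ hLs] with u h1 h2
        exact (hUq _ h2).2 (by linarith)
      · filter_upwards [hr', hUev _ hRs] with u h1 h2
        exact (hUq _ h2).1 (by linarith)
    · refine ⟨key _ _ hR1 hRs ?_, key _ _ hL1 hLs ?_⟩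
      · filter_upwards [hr', hUev _ hRs] with u h1 h2
        exact (hUq _ h2).2 (by linarith)
      · filter_upwards [hl', hUev _ hLs] with u h1 h2
        exact (hUq _ h2).1 (by linarith)
  have hsq : h.toFun (G.e i t) ∈ K.sq q := by
    show _ ∈ Icc (K.slo q) (K.shi q)
    rw [K.s_eq q]
    exact ⟨both.1.1, both.2.1⟩
  have hfl : h.toFun (G.e i t) (K.nrm q) = K.slo q (K.nrm q) :=
    le_antisymm ((hsq.2 _).trans (K.s_flat q).ge) (hsq.1 _)
  refine ⟨hfl, fun k hk => ?_⟩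
  have hno : ¬ ∃ k, k ≠ K.nrm q ∧ (h.toFun (G.e i t) k = K.slo q k ∨
      h.toFun (G.e i t) k = K.shi q k) := by
    intro hex
    obtain ⟨e, -, he⟩ := K.sq_bd q _ hsq hex
    exact both.1.2 (edge_sub_Hin hc e he)
  refine ⟨lt_of_le_of_ne (hsq.1 k) fun h0 => hno ⟨k, hk, Or.inl h0.symm⟩,
    lt_of_le_of_ne (hsq.2 k) fun h0 => hno ⟨k, hk, Or.inr h0⟩⟩

include hinv hf hc hB hR hD hmiss hT1 hT2 hh1 hh3 hGV hrat in
/-- **the coding of `h` and `f` on the graph is the same** -/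
theorem code_all (i : G.ι) {t : ℝ} (ht : t ∈ Icc (0:ℝ) 1) (p : K.T) :
    h.toFun (G.e i t) ∈ K.cube p ↔ f (G.e i t) ∈ K.cube p := by
  by_cases hX : f (G.e i t) ∈ ⋃ j, frontier (s.R c j)
  · obtain ⟨q, hq⟩ := sqo_of_mem_X hc hB hR hX (hmiss i _ (edge_mem_segment G i ht))
    have hq' := code_crossing hinv hf hc hB hR hD hGV G hrat hmiss T hT1 hT2 h hh1 hh3 i ht hq
    constructor
    · intro h1
      rcases K.sqo_tile q p _ hq'.1 hq'.2 h1 with rfl | rfl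
      · exact (sq_sub q (sqo_sub_sq q hq)).1
      · exact (sq_sub q (sqo_sub_sq q hq)).2
    · intro h1
      rcases K.sqo_tile q p _ hq.1 hq.2 h1 with rfl | rfl
      · exact (sq_sub q (sqo_sub_sq q hq')).1
      · exact (sq_sub q (sqo_sub_sq q hq')).2
  · obtain ⟨p', hp1, hp2, -⟩ := code_generic hinv hf hB hR hD G hmiss T hT1 hT2 h hh1 hh3 i ht hX
    constructor
    · intro h1
      rw [unique_open hp2 h1]
      exact open_mem_cube hp1
    · intro h1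
      rw [unique_open hp1 h1]
      exact open_mem_cube hp2

end

end P073.PA691
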