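import Vale.Agent.P073.PA691.TTb
import Vale.Agent.P073.TMD773.Fields
import Vale.Agent.P073.H894.TMFr

/-!
# P073, block PA, TT: the cells are small compared with the tiles
-/

open Set Metric Topology Filter

namespace P073.PA691.TT

open P073 PR720
open Vale.Agent.P073.St (V IsInv)
open BoxCx BoxCx.Sizes

variable {Λ : Set V} {v : V} {K : BoxCx Λ v} {s : K.Sizes} {c : ℝ}

theorem norm_sub_le_of {x y : V} {t : ℝ} (ht : 0 ≤ t) (h : ∀ k, |x k - y k| ≤ t) : ‖x - y‖ ≤ t := by
  rw [pi_norm_le_iff_of_nonneg ht]
  intro k
  rw [Real.norm_eq_abs]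
  exact h k

theorem near_cell (hc : c ∈ Ioo (1/2:ℝ) 1) (hD : s.DiscFacts c)
    (hR : s.BallFacts c) {ρ : V → ℝ}
    (hside : ∀ p, ∀ x ∈ K.cube p, ∀ k, K.hi p k - K.lo p k ≤ ρ x) {x y : V} (hxΛ : x ∈ Λ)
    {j : K.T ⊕ K.W ⊕ K.G} (hx : x ∈ s.R c j)
    (hy : y ∈ s.R c j ∨ ∃ d, s.par c d '' s.Δ c d ⊆ frontier (s.R c j) ∧ y ∈ s.par c d '' Q0) :
    ‖y - x‖ ≤ 2 * ρ x := by
  have hc0 : 0 < c := by linarith [hc.1]
  -- the centre of a disc
  have hcen : ∀ d, s.par c d '' s.Δ c d ⊆ frontier (s.R c j) → s.par c d 0 ∈ s.R c j := by
    intro d hd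
    exact (hR j).isClosed.frontier_subset (hd (mem_image_of_mem _ (hD.zero_mem d).1))
  obtain ⟨p₀, hp₀⟩ := K.cover x hxΛ
  have hρpos : 0 < ρ x := by
    have h1 := hside p₀ x hp₀ 0
    have h2 := K.lt p₀ 0
    linarith
  rcases j with q | i | e
  · -- the cell of a tile
    have hxq : x ∈ K.cube q := hx.1
    have hyq : y ∈ K.cube q := by
      rcases hy with hy | ⟨d, hd, y', hy', rfl⟩
      · exact hy.1
      · have h0 := hcen d hd
        rcases d with ⟨e, β⟩ | t
        · exact absurd ((hD.in_in (.inl (e, β)) (fun h => h)).1 0 (hD.zero_mem _).1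
            (hD.zero_mem _).2) h0.2
        · have h1 := TMD773.par_inr_sqo (c := c) s t (y := 0) (by simp)
          have h2 := TMD773.par_inr_sqo (c := c) s t hy'
          rcases K.sqo_tile t q _ h1.1 h1.2 h0.1 with rfl | rfl
          · exact (sq_sub t (sqo_sub_sq t h2)).1
          · exact (sq_sub t (sqo_sub_sq t h2)).2
    refine (norm_sub_le_of hρpos.le fun k => ?_).trans (by linarith)
    have h1 := hside q x hxq k
    have h2 := hyq.1 k
    have h3 := hyq.2 k
    have h4 := hxq.1 k
    have h5 := hxq.2 k
    rw [abs_le]
    constructor <;> linarith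
  · -- the cell of a vertex
    have hr := TMD773.r_pos s i
    have hxU : x ∈ closedBall (K.w i) (2 * s.r i) := s.RV_sub hc i hx
    have hyU : y ∈ closedBall (K.w i) (2 * s.r i) := by
      rcases hy with hy | ⟨d, hd, y', hy', rfl⟩
      · exact s.RV_sub hc i hy
      · have h0 := hcen d hd
        rcases d with ⟨e, β⟩ | t
        · have h0U := s.RV_sub hc i h0
          have h0n := TMD773.par_inl_nb s hc e β (y := 0) (by simp)
          have hyn := TMD773.par_inl_nb s hc e β hy'
          have hlong := TMD773.long s e
          have hra := TMD773.r_pos s (K.a e)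
          have hrb := TMD773.r_pos s (K.b e)
          have hq := TMD773.q_pos s e
          have hq8 := s.q_le e
          have h0d := TMD773.par_inl_dir (c := c) s e β 0
          have hyd := TMD773.par_inl_dir (c := c) s e β y'
          have hi := s.U_edge i e _ h0U h0n
          rw [TMD773.mem_closedBall_iff (by positivity)] at h0U ⊢
          have h0k := h0U (K.dir e)
          rw [abs_le] at h0k
          cases β with
          | false =>
            simp only [Bool.false_eq_true, if_false] at h0d hyd
            have hca : s.ca e = K.w (K.a e) (K.dir e) + 5 / 4 * s.r (K.a e) := rfl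
            have hia : i = K.a e := by
              rcases hi with h | h
              · exact h
              · exfalso
                rw [h, h0d, hca] at h0k
                linarith [h0k.1]
            rw [hia]
            intro k
            by_cases hk : k = K.dir e
            · rw [hk, hyd, hca, abs_le]
              constructor <;> linarith
            · have h1 := hyn k
              have h2 := K.ab_off e k hk
              rw [abs_le]
              constructor
              · linarith [h1.1]
              · linarith [h1.2]
          | true =>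
            simp only [if_true] at h0d hyd
            have hcb : s.cb e = K.w (K.b e) (K.dir e) - 5 / 4 * s.r (K.b e) := rfl
            have hib : i = K.b e := by
              rcases hi with h | h
              · exfalso
                rw [h, h0d, hcb] at h0k
                linarith [h0k.2]
              · exact h
            rw [hib]
            intro k
            by_cases hk : k = K.dir e
            · rw [hk, hyd, hcb, abs_le]
              constructor <;> linarith
            · have h1 := hyn k
              have h2 := K.ab_off e k hk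
              rw [abs_le]
              constructor
              · linarith [h1.1]
              · linarith [h1.2]
        · exact absurd (RV_sub_H i h0) ((hD.out_in (.inr t) trivial).1 0 (hD.zero_mem _).1
            (hD.zero_mem _).2)
    obtain ⟨h1, h2⟩ := s.U_tile i p₀ x hxU hp₀
    have h3 : 2 * s.r i ≤ ρ x := by
      have h4 := hside p₀ x hp₀ 0
      have h5 := K.lt p₀ 0
      have h6 := h1.1 0
      have h7 := h1.2 0
      by_cases h8 : K.w i 0 = K.lo p₀ 0
      · have h9 := (h2 0).2 (by rw [h8]; exact h5.ne)
        linarith
      · have h9 := (h2 0).1 h8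
        linarith
    rw [mem_closedBall, dist_eq_norm] at hxU hyU
    have h4 : y - x = (y - K.w i) - (x - K.w i) := by abel
    rw [h4]
    refine (norm_sub_le _ _).trans ?_
    linarith
  · -- the cell of an edge
    have hq := TMD773.q_pos s e
    have hxn : x ∈ K.nb e (2 * s.q e) := TMD773.nb_mono (by nlinarith [hc.2]) hx.1
    have hlong := TMD773.long s e
    have hra := TMD773.r_pos s (K.a e)
    have hrb := TMD773.r_pos s (K.b e)
    have hq8 := s.q_le e
    have hyn : y ∈ K.nb e (2 * s.q e) := by
      rcases hy with hy | ⟨d, hd, y', hy', rfl⟩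
      · exact TMD773.nb_mono (by nlinarith [hc.2]) hy.1
      · have h0 := hcen d hd
        rcases d with ⟨e', β⟩ | t
        · have h0n : s.par c (.inl (e', β)) 0 ∈ K.nb e (2 * s.q e) :=
            TMD773.nb_mono (by nlinarith [hc.2]) h0.1
          have h0n' := TMD773.par_inl_nb s hc e' β (y := 0) (by simp)
          have hmid := TMD773.par_inl_mid (c := c) s e' β 0
          have hee := (TMD773.mid_tube s h0n' hmid.1 hmid.2).1 e h0n
          subst hee
          exact TMD773.par_inl_nb s hc e β hy'
        · exact absurd (RG_sub_H e h0) ((hD.out_in (.inr t) trivial).1 0 (hD.zero_mem _).1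
            (hD.zero_mem _).2)
    have hca : s.ca e = K.w (K.a e) (K.dir e) + 5 / 4 * s.r (K.a e) := rfl
    have hcb : s.cb e = K.w (K.b e) (K.dir e) - 5 / 4 * s.r (K.b e) := rfl
    have hx1 := hx.2.1
    have hx2 := hx.2.2
    have hna : x ∉ ball (K.w (K.a e)) (s.r (K.a e) / 2) := by
      rw [TMD773.mem_ball_iff' (by positivity)]
      intro h
      have := (abs_lt.1 (h (K.dir e))).2
      linarith
    have hnb : x ∉ ball (K.w (K.b e)) (s.r (K.b e) / 2) := by
      rw [TMD773.mem_ball_iff' (by positivity)]
      intro h
      have := (abs_lt.1 (h (K.dir e))).1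
      linarith
    obtain ⟨h1, -⟩ := s.tube_tile e p₀ x hxn hp₀ hna hnb
    have h2 := (h1 (TMD773.mem_edge_a e)).1 (K.dir e)
    have h3 := (h1 (TMD773.mem_edge_b e)).2 (K.dir e)
    have h4 := hside p₀ x hp₀ (K.dir e)
    refine norm_sub_le_of (by linarith) fun k => ?_
    have h5 := hyn k
    have h6 := hxn k
    by_cases hk : k = K.dir e
    · rw [hk] at h5 h6 ⊢
      rw [abs_le]
      constructor <;> linarith [h5.1, h5.2, h6.1, h6.2]
    · have h7 := K.ab_off e k hk
      rw [abs_le]
      constructor <;> linarith [h5.1, h5.2, h6.1, h6.2]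

end P073.PA691.TT
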